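import Vale.Agent.P155.T733.Arm

/-!
# P155, BD block R4 (3): no conformally macroscopic strand in a thin collar
-/

namespace Vale.Agent.P155.T733

open Finset

/-- Some loop has a connected piece of diameter at least `e` in the collar `1 - ‖w‖ ≤ τ`. -/
def EvC (tr : Conf → Set Pt → Set ℂ) (e τ : ℝ) (ω : Conf) : Prop :=
  ∃ L ∈ Loops ω, ∃ G ⊆ tr ω L, IsPreconnected G ∧ (∀ w ∈ G, 1 - ‖w‖ ≤ τ) ∧
    ∃ z ∈ G, ∃ z' ∈ G, e ≤ ‖z - z'‖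

/-- the weight of all boxes of small generation height -/
theorem low_sum {c : ℝ} (hc : 0 < c) (N : ℕ) {s : ℝ} (hs : 0 < s) :
    ∑ K ∈ boxes N with ((1 / 2 : ℝ) ^ K.1 ≤ s), (1 / 2 : ℝ) ^ K.1 * ((1 / 2 : ℝ) ^ c) ^ K.1 ≤
      s ^ c / (1 - (1 / 2 : ℝ) ^ c) := by
  classical
  refine le_trans (le_of_eq ?_) (gen_sum hc N hs)
  rw [Finset.sum_filter, sum_boxes, Finset.sum_filter]
  apply Finset.sum_congr rfl
  intro m _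
  simp only
  split_ifs with h
  · rw [Finset.sum_const, Finset.card_range, nsmul_eq_mul]
    have h2m : (1 / 2 : ℝ) ^ m * 2 ^ m = 1 := by rw [← mul_pow]; norm_num
    push_cast
    linear_combination ((1 / 2 : ℝ) ^ c) ^ m * h2m
  · simp

theorem collar_two {V : Finset Pt} {tr : Conf → Set Pt → Set ℂ} {N : ℕ} (hT : TrOK V tr N)
    {c CP : ℝ} (hc : 0 < c) (hCP : 0 ≤ CP) {ξ1 ξ2 : ℂ} {a l τ : ℝ} (ha : 0 < a) (hl : 0 < l)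
    (hτ : 0 < τ)
    (hpair : ∀ K ∈ boxes N, ∀ K' ∈ boxes N, (1 / 2 : ℝ) ^ K.1 ≤ 2 * τ →
      (1 / 2 : ℝ) ^ K'.1 ≤ 2 * τ → MeetsAnn ξ1 a K → MeetsAnn ξ2 a K' →
      pv V tr K K' ≤ CP * (((1 / 2 : ℝ) ^ c) ^ K.1 * ((1 / 2 : ℝ) ^ c) ^ K'.1 / (l ^ 2) ^ c)) :
    Pr V (fun ω => ∃ L ∈ Loops ω, ∃ G ⊆ tr ω L, IsPreconnected G ∧ (∀ w ∈ G, 1 - ‖w‖ ≤ τ) ∧
      (∃ w ∈ G, ‖w - ξ1‖ ≤ a) ∧ (∃ w ∈ G, 2 * a ≤ ‖w - ξ1‖) ∧ (∃ w ∈ G, ‖w - ξ2‖ ≤ a) ∧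
      ∃ w ∈ G, 2 * a ≤ ‖w - ξ2‖) ≤
      CP * (196 / a ^ 2 / (1 - (1 / 2 : ℝ) ^ c) ^ 2 / (l ^ 2) ^ c) * ((2 * τ) ^ c) ^ 2 := by
  classical
  set β := (1 / 2 : ℝ) ^ c with hβ
  have hβ0 : 0 < β := by positivity
  have hβ1 : β < 1 := Real.rpow_lt_one (by norm_num) (by norm_num) hc
  have h1β : 0 < 1 - β := by linarith
  set Low : ℂ → ℕ × ℕ → Prop := fun ξ K => (1 / 2 : ℝ) ^ K.1 ≤ 2 * τ ∧ MeetsAnn ξ a K with hLow
  set B1 := (boxes N).filter (Low ξ1) with hB1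
  set B2 := (boxes N).filter (Low ξ2) with hB2
  have hcross : ∀ ω ∈ DD V, ∀ L ∈ Loops ω, ∀ G ⊆ tr ω L, IsPreconnected G →
      (∀ w ∈ G, 1 - ‖w‖ ≤ τ) → ∀ ξ : ℂ,
      (∃ w ∈ G, ‖w - ξ‖ ≤ a) → (∃ w ∈ G, 2 * a ≤ ‖w - ξ‖) →
      ∃ S ⊆ (boxes N).filter (Low ξ), (∀ K ∈ S, (tr ω L ∩ dbox K).Nonempty) ∧
        a / 14 ≤ ∑ K ∈ S, (1 / 2 : ℝ) ^ K.1 := by
    intro ω hω L hL G hG hGc hGτ ξ hin hout
    set p : ℕ × ℕ → Prop := fun K => (tr ω L ∩ dbox K).Nonempty ∧ Low ξ K with hp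
    refine ⟨(boxes N).filter p, ?_, ?_, ?_⟩
    · intro K hK
      rw [Finset.mem_filter] at hK ⊢
      exact ⟨hK.1, hK.2.2⟩
    · intro K hK
      exact (Finset.mem_filter.1 hK).2.1
    · have := cover_sum (boxes N) dbox (fun K => 7 * (1 / 2 : ℝ) ^ K.1) (fun _ _ => by positivity)
        (fun K _ w hw w' hw' => dbox_diam hw hw') hGc
        (fun w hw => exists_dbox_le (hT.deep ω hω L hL w (hG hw))) hin hout p
        (fun K _ w hw hwK h3 h4 => by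
          refine ⟨⟨w, hG hw, hwK⟩, ?_, w, hwK, h3, h4⟩
          have h5 := hGτ w hw
          obtain ⟨θ, t, -, -, h6, h7, rfl⟩ := hwK
          have h8 : t ≤ 1 := h7.trans (pow_le_one₀ (by norm_num) (by norm_num))
          rw [norm_mul, norm_ee, mul_one, norm_real_sub, abs_of_nonneg (by linarith)] at h5
          rw [pow_succ] at h6
          linarith)
      rw [← Finset.mul_sum] at this
      linarith
  let Q0 : Conf → Prop := fun ω => ∃ L ∈ Loops ω, ∃ G ⊆ tr ω L, IsPreconnected G ∧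
      (∀ w ∈ G, 1 - ‖w‖ ≤ τ) ∧
      (∃ w ∈ G, ‖w - ξ1‖ ≤ a) ∧ (∃ w ∈ G, 2 * a ≤ ‖w - ξ1‖) ∧ (∃ w ∈ G, ‖w - ξ2‖ ≤ a) ∧
      ∃ w ∈ G, 2 * a ≤ ‖w - ξ2‖
  have hw := weighted_union (V := V) B1 B2 (fun ω L K => (tr ω L ∩ dbox K).Nonempty)
    (fun K => (1 / 2 : ℝ) ^ K.1) (fun _ => by positivity) (α1 := a / 14) (α2 := a / 14)
    (by positivity) (by positivity) Q0 (by
      rintro ω hω ⟨L, hL, G, hG, hGc, hGτ, i1, o1, i2, o2⟩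
      obtain ⟨S1, s1, v1, t1⟩ := hcross ω hω L hL G hG hGc hGτ ξ1 i1 o1
      obtain ⟨S2, s2, v2, t2⟩ := hcross ω hω L hL G hG hGc hGτ ξ2 i2 o2
      exact ⟨L, hL, S1, s1, S2, s2, v1, v2, t1, t2⟩)
  refine hw.trans ?_
  have hlc : 0 < (l ^ 2) ^ c := by positivity
  have hsum : ∑ i ∈ B1, ∑ j ∈ B2, (1 / 2 : ℝ) ^ i.1 * (1 / 2 : ℝ) ^ j.1 *
      Pr V (fun ω => ∃ L ∈ Loops ω, (tr ω L ∩ dbox i).Nonempty ∧ (tr ω L ∩ dbox j).Nonempty) ≤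
      CP / (l ^ 2) ^ c * ((∑ i ∈ B1, (1 / 2 : ℝ) ^ i.1 * β ^ i.1) *
        ∑ j ∈ B2, (1 / 2 : ℝ) ^ j.1 * β ^ j.1) := by
    rw [Finset.sum_mul_sum, Finset.mul_sum]
    apply Finset.sum_le_sum
    intro i hi
    rw [Finset.mul_sum]
    apply Finset.sum_le_sum
    intro j hj
    have h3 := hpair i (Finset.mem_filter.1 hi).1 j (Finset.mem_filter.1 hj).1
      (Finset.mem_filter.1 hi).2.1 (Finset.mem_filter.1 hj).2.1
      (Finset.mem_filter.1 hi).2.2 (Finset.mem_filter.1 hj).2.2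
    unfold pv at h3
    calc (1 / 2 : ℝ) ^ i.1 * (1 / 2 : ℝ) ^ j.1 *
          Pr V (fun ω => ∃ L ∈ Loops ω, (tr ω L ∩ dbox i).Nonempty ∧ (tr ω L ∩ dbox j).Nonempty)
        ≤ (1 / 2 : ℝ) ^ i.1 * (1 / 2 : ℝ) ^ j.1 *
          (CP * (β ^ i.1 * β ^ j.1 / (l ^ 2) ^ c)) :=
          mul_le_mul_of_nonneg_left h3 (by positivity)
      _ = _ := by ring
  have hBle : ∀ ξ : ℂ, ∑ K ∈ (boxes N).filter (Low ξ), (1 / 2 : ℝ) ^ K.1 * β ^ K.1 ≤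
      (2 * τ) ^ c / (1 - β) := by
    intro ξ
    refine le_trans ?_ (low_sum hc N (show 0 < 2 * τ by positivity))
    apply Finset.sum_le_sum_of_subset_of_nonneg
    · intro K hK
      rw [Finset.mem_filter] at hK ⊢
      exact ⟨hK.1, hK.2.1⟩
    · intro K _ _
      positivity
  have hs1 : 0 ≤ ∑ i ∈ B1, (1 / 2 : ℝ) ^ i.1 * β ^ i.1 :=
    Finset.sum_nonneg (fun _ _ => by positivity)
  have hs2 : 0 ≤ ∑ i ∈ B2, (1 / 2 : ℝ) ^ i.1 * β ^ i.1 :=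
    Finset.sum_nonneg (fun _ _ => by positivity)
  calc (a / 14 * (a / 14))⁻¹ * ∑ i ∈ B1, ∑ j ∈ B2, (1 / 2 : ℝ) ^ i.1 * (1 / 2 : ℝ) ^ j.1 *
        Pr V (fun ω => ∃ L ∈ Loops ω, (tr ω L ∩ dbox i).Nonempty ∧ (tr ω L ∩ dbox j).Nonempty)
      ≤ (a / 14 * (a / 14))⁻¹ * (CP / (l ^ 2) ^ c *
        ((2 * τ) ^ c / (1 - β) * ((2 * τ) ^ c / (1 - β)))) := by
        apply mul_le_mul_of_nonneg_left _ (by positivity)
        refine hsum.trans ?_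
        apply mul_le_mul_of_nonneg_left _ (by positivity)
        exact mul_le_mul (hBle ξ1) (hBle ξ2) hs2 (hs1.trans (hBle ξ1))
    _ = _ := by
        field_simp
        ring

/-- finite nets of the closed unit disc -/
theorem exists_net {e : ℝ} (he : 0 < e) : ∃ F : Finset ℂ, ∀ z : ℂ, ‖z‖ ≤ 1 → ∃ ξ ∈ F, ‖z - ξ‖ ≤ e := by
  have hc : IsCompact (Metric.closedBall (0 : ℂ) 1) := isCompact_closedBall _ _
  obtain ⟨F, hF, hcov⟩ := hc.elim_nhds_subcover (fun z => Metric.ball z e)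
    (fun z _ => Metric.ball_mem_nhds z he)
  refine ⟨F, fun z hz => ?_⟩
  have : z ∈ ⋃ x ∈ F, Metric.ball x e := hcov (by simpa using hz)
  obtain ⟨ξ, hξ, hzξ⟩ := Set.mem_iUnion₂.1 this
  refine ⟨ξ, hξ, ?_⟩
  rw [Metric.mem_ball, dist_eq_norm] at hzξ
  exact hzξ.le

/-- **R4 (3), the collar.** -/
theorem collar {c CP e ε : ℝ} (hc : 0 < c) (hCP : 0 ≤ CP) (he : 0 < e) (hε : 0 < ε) :
    ∃ τ : ℝ, 0 < τ ∧ τ ≤ 1 ∧ ∀ (V : Finset Pt) (tr : Conf → Set Pt → Set ℂ) (N : ℕ),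
      TrOK V tr N →
      (∀ K ∈ boxes N, ∀ K' ∈ boxes N, (1 / 2 : ℝ) ^ K.1 ≤ 2 * τ → (1 / 2 : ℝ) ^ K'.1 ≤ 2 * τ →
        (∃ w ∈ dbox K, ∃ w' ∈ dbox K', e / 2 ≤ ‖w - w'‖) →
        pv V tr K K' ≤ CP * (((1 / 2 : ℝ) ^ c) ^ K.1 * ((1 / 2 : ℝ) ^ c) ^ K'.1 /
          ((e / 2) ^ 2) ^ c)) →
      Pr V (EvC tr e τ) ≤ ε := by
  classical
  obtain ⟨F, hF⟩ := exists_net (show 0 < e / 16 by positivity)
  set β := (1 / 2 : ℝ) ^ c with hβ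
  have hβ0 : 0 < β := by positivity
  have hβ1 : β < 1 := Real.rpow_lt_one (by norm_num) (by norm_num) hc
  have h1β : 0 < 1 - β := by linarith
  set M : ℝ := ((F ×ˢ F).card : ℝ) *
    (CP * (196 / (e / 16) ^ 2 / (1 - β) ^ 2 / ((e / 2) ^ 2) ^ c)) with hM
  have hM0 : 0 ≤ M := by positivity
  -- choice of `τ`
  have hlim : Filter.Tendsto (fun τ : ℝ => M * ((2 * τ) ^ c) ^ 2) (nhdsWithin 0 (Set.Ioi 0))
      (nhds 0) := by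
    have h1 : Filter.Tendsto (fun τ : ℝ => M * ((2 * τ) ^ c) ^ 2) (nhds 0)
        (nhds (M * ((2 * 0) ^ c) ^ 2)) := by
      have hcont : Continuous (fun τ : ℝ => M * ((2 * τ) ^ c) ^ 2) := by
        apply Continuous.mul continuous_const
        apply Continuous.pow
        exact (continuous_const.mul continuous_id).rpow_const (fun _ => Or.inr hc.le)
      exact hcont.tendsto 0
    rw [mul_zero, Real.zero_rpow hc.ne', zero_pow two_ne_zero, mul_zero] at h1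
    exact h1.mono_left nhdsWithin_le_nhds
  have hev := (hlim.eventually (gt_mem_nhds hε)).and
    (Ioo_mem_nhdsGT (show (0 : ℝ) < 1 by norm_num))
  obtain ⟨τ, hτε, hτ0, hτ1⟩ := hev.exists
  refine ⟨τ, hτ0, hτ1.le, ?_⟩
  intro V tr N hT hpair
  let Q : ℂ × ℂ → Conf → Prop := fun P ω => (e / 2 ≤ ‖P.1 - P.2‖ - e / 4) ∧
    ∃ L ∈ Loops ω, ∃ G ⊆ tr ω L, IsPreconnected G ∧
      (∀ w ∈ G, 1 - ‖w‖ ≤ τ) ∧ (∃ w ∈ G, ‖w - P.1‖ ≤ e / 16) ∧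
      (∃ w ∈ G, 2 * (e / 16) ≤ ‖w - P.1‖) ∧ (∃ w ∈ G, ‖w - P.2‖ ≤ e / 16) ∧
      ∃ w ∈ G, 2 * (e / 16) ≤ ‖w - P.2‖
  have hmono : Pr V (EvC tr e τ) ≤ Pr V (fun ω => ∃ P ∈ F ×ˢ F, Q P ω) := by
    apply E.Pr_mono
    rintro ω hω ⟨L, hL, G, hG, hGc, hGτ, z, hz, z', hz', hzz⟩
    have hn : ∀ w ∈ tr ω L, ‖w‖ ≤ 1 := by
      intro w hw
      have h1 := hT.deep ω hω L hL w hw
      have : (0 : ℝ) < (1 / 2) ^ N := by positivity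
      linarith
    obtain ⟨ξ1, hξ1, hd1⟩ := hF z (hn z (hG hz))
    obtain ⟨ξ2, hξ2, hd2⟩ := hF z' (hn z' (hG hz'))
    have k1 : ‖z - z'‖ ≤ ‖z - ξ1‖ + ‖ξ1 - ξ2‖ + ‖z' - ξ2‖ := by
      have : z - z' = (z - ξ1) + (ξ1 - ξ2) - (z' - ξ2) := by ring
      rw [this]
      refine (norm_sub_le _ _).trans ?_
      linarith [norm_add_le (z - ξ1) (ξ1 - ξ2)]
    have k2 : ‖z - z'‖ ≤ ‖z - ξ1‖ + ‖z' - ξ1‖ := by
      have : z - z' = (z - ξ1) - (z' - ξ1) := by ring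
      rw [this]
      exact norm_sub_le _ _
    have k3 : ‖z - z'‖ ≤ ‖z - ξ2‖ + ‖z' - ξ2‖ := by
      have : z - z' = (z - ξ2) - (z' - ξ2) := by ring
      rw [this]
      exact norm_sub_le _ _
    refine ⟨(ξ1, ξ2), Finset.mem_product.2 ⟨hξ1, hξ2⟩, ?_, L, hL, G, hG, hGc, hGτ,
      ⟨z, hz, hd1⟩, ⟨z', hz', ?_⟩, ⟨z', hz', hd2⟩, ⟨z, hz, ?_⟩⟩
    · simp only
      linarith
    · simp only
      linarith
    · simp only
      linarith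
  refine hmono.trans ?_
  have hb : ∀ P ∈ F ×ˢ F, Pr V (Q P) ≤
      CP * (196 / (e / 16) ^ 2 / (1 - β) ^ 2 / ((e / 2) ^ 2) ^ c) * ((2 * τ) ^ c) ^ 2 := by
    intro P _
    by_cases hsep : e / 2 ≤ ‖P.1 - P.2‖ - e / 4
    · refine (E.Pr_mono (fun ω _ h => h.2)).trans ?_
      apply collar_two hT hc hCP (by positivity) (by positivity) hτ0
      rintro K hK K' hK' hs hs' ⟨w, hw, -, hw2⟩ ⟨w', hw', -, hw2'⟩
      apply hpair K hK K' hK' hs hs'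
      refine ⟨w, hw, w', hw', ?_⟩
      have : ‖P.1 - P.2‖ ≤ ‖w - w'‖ + ‖w - P.1‖ + ‖w' - P.2‖ := by
        have e1 : P.1 - P.2 = (w - w') - (w - P.1) + (w' - P.2) := by ring
        rw [e1]
        refine (norm_add_le _ _).trans ?_
        linarith [norm_sub_le (w - w') (w - P.1)]
      linarith
    · calc Pr V (Q P) ≤ Pr V (fun _ => False) := E.Pr_mono (fun ω _ h => hsep h.1)
        _ = 0 := by
            rw [E.Pr_eq_avg]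
            simp [J.avg]
        _ ≤ _ := by positivity
  refine (E.Pr_exists_le_card V (F ×ˢ F) Q hb).trans ?_
  have : ((F ×ˢ F).card : ℝ) * (CP * (196 / (e / 16) ^ 2 / (1 - β) ^ 2 / ((e / 2) ^ 2) ^ c) *
      ((2 * τ) ^ c) ^ 2) = M * ((2 * τ) ^ c) ^ 2 := by rw [hM]; ring
  rw [this]
  exact hτε.le

end Vale.Agent.P155.T733
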