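import Vale.Agent.P155.T733.Arm

/-!
# P155, BD block R5: the union bound for fjords, with a lattice cut-off
-/

namespace Vale.Agent.P155.T733

open Finset

theorem Pr_false (V : Finset Pt) : Pr V (fun _ => False) = 0 := by
  classical
  rw [E.Pr_eq_avg]
  simp [J.avg]

/-- A chain with total size `S` and all sizes at most `r1` is longer than `S / r1`. -/
theorem long_chain {S r1 : ℝ} (hr1 : 0 < r1) (x : ℕ → ℝ) (m : ℕ)
    (hx : ∀ i ≤ m, x i ≤ r1) (hS : S ≤ ∑ i ∈ range (m + 1), x i) : ⌈S / r1⌉₊ ≤ m + 1 := by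
  rw [Nat.ceil_le, div_le_iff₀ hr1]
  refine hS.trans ?_
  calc ∑ i ∈ range (m + 1), x i ≤ ∑ _i ∈ range (m + 1), r1 := Finset.sum_le_sum (fun i hi => hx i
        (Nat.lt_succ_iff.1 (Finset.mem_range.1 hi)))
    _ = _ := by simp

/-- dichotomy with the maximum -/
theorem dichotomy' {c S : ℝ} (hc : 0 < c) (x : ℕ → ℝ) (m : ℕ) (hpos : ∀ i ≤ m, 0 < x i)
    (hS : S ≤ ∑ i ∈ range (m + 1), x i) (hsmall : ∀ i ≤ m, cst c ≤ S / (2 * x i)) {r1 : ℝ}
    (hr1 : 0 < r1) :
    (∃ i0 ≤ m, r1 ≤ x i0 ∧ (S / (2 * x i0) ≤ m - i0 + 1 ∨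
      ∃ i ≤ i0, lam c S (x i0) * Real.exp (-(c * (i0 - i : ℕ))) ≤ (x i) ^ 2)) ∨
      ⌈S / r1⌉₊ ≤ m + 1 := by
  by_cases hbig : ∀ i ≤ m, x i ≤ r1
  · right
    exact long_chain hr1 x m hbig hS
  push Not at hbig
  left
  obtain ⟨i1, hi1, hx1⟩ := hbig
  obtain ⟨i0, hi0, hmax⟩ := Finset.exists_max_image (range (m + 1)) x ⟨0, by simp⟩
  have hi0' : i0 ≤ m := Nat.lt_succ_iff.1 (Finset.mem_range.1 hi0)
  refine ⟨i0, hi0', ?_, ?_⟩
  · have := hmax i1 (Finset.mem_range.2 (Nat.lt_succ_iff.2 hi1))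
    linarith
  by_contra hcon
  push Not at hcon
  obtain ⟨h1, h2⟩ := hcon
  set r := x i0 with hr
  have hr0 : 0 < r := hpos i0 hi0'
  have hlow : ∑ i ∈ range (i0 + 1), x (i0 - i) ≤ S / 2 - r := by
    have hp := path_sum hc hr0 (L := S / (2 * r) - cst c) (by
      have := hsmall i0 hi0'
      rw [← hr] at this
      linarith) (fun i => x (i0 - i)) (i0 + 1) (fun i hi => hmax _ (by
        rw [Finset.mem_range]; omega)) (fun i hi => by
        have h3 := h2 (i0 - i) (by omega)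
        have h4 : i0 - (i0 - i) = i := by omega
        rw [h4] at h3
        unfold lam at h3
        exact h3.le)
    refine hp.trans (le_of_eq ?_)
    unfold cst
    field_simp
    ring
  have hrefl : ∑ i ∈ range (i0 + 1), x (i0 - i) = ∑ i ∈ range (i0 + 1), x i := by
    rw [← Finset.sum_range_reflect]
    apply Finset.sum_congr rfl
    intro i hi
    have := Finset.mem_range.1 hi
    congr 1
    omega
  rw [hrefl] at hlow
  obtain ⟨k, rfl⟩ := Nat.exists_eq_add_of_le hi0'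
  have hsplit : ∑ i ∈ range (i0 + k + 1), x i =
      ∑ i ∈ range (i0 + 1), x i + ∑ i ∈ range k, x (i0 + 1 + i) := by
    rw [← Finset.sum_range_add]
    congr 2
    omega
  have hup : ∑ i ∈ range k, x (i0 + 1 + i) ≤ k * r := by
    calc ∑ i ∈ range k, x (i0 + 1 + i) ≤ ∑ _i ∈ range k, r := Finset.sum_le_sum (fun i hi => by
          apply hmax
          have := Finset.mem_range.1 hi
          rw [Finset.mem_range]; omega)
      _ = k * r := by simp
  have h5 : S / (2 * r) > k + 1 := by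
    have e : ((i0 + k : ℕ) : ℝ) - i0 + 1 = k + 1 := by push_cast; ring
    rw [e] at h1
    exact h1
  have h6 : (k + 1) * r < S / 2 := by
    rw [gt_iff_lt, lt_div_iff₀ (by positivity)] at h5
    linarith
  rw [hsplit] at hS
  linarith

theorem fjord_union' {V : Finset Pt} {B : Finset (ℕ × ℕ)} {d : ℕ × ℕ → ℝ}
    {Ev : ℕ × ℕ → ℕ → Conf → Prop} {c C A S r0 r1 : ℝ} {k1 : ℕ} (hc : 0 < c) (hC : 0 ≤ C)
    (hS : 0 < S) (hsm : cst c ≤ S / (2 * r0)) (hr1 : 0 < r1) (hk1 : (k1 : ℝ) + 1 ≤ S / r1)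
    (hd : ∀ K ∈ B, 0 < d K) (hA : ∑ K ∈ B, d K ^ 2 ≤ A)
    (hE : ∀ K ∈ B, ∀ k ≤ K.1, anc K k ∈ B → (r1 ≤ d K ∨ r1 ≤ d (anc K k) ∨ k1 ≤ k) →
      Pr V (Ev K k) ≤ C * Real.exp (-(c * k))) :
    Pr V (Fj B d Ev S r0) ≤ (∑ K ∈ B with d K ≤ r0,
      (C * (Real.exp c * Real.exp (-(c * (S / (2 * d K))))) + C * A / lam c S (d K))) +
      B.card * (C * Real.exp (-(c * (S / r1 - 1)))) := by
  classical
  set k2 := ⌈S / r1⌉₊ - 1 with hk2
  have hceil := Nat.le_ceil (S / r1)
  have hk12 : k1 ≤ k2 := by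
    have h1 : k1 + 1 ≤ ⌈S / r1⌉₊ := by
      have h2 : ((k1 + 1 : ℕ) : ℝ) ≤ (⌈S / r1⌉₊ : ℕ) := by
        push_cast
        exact hk1.trans hceil
      exact_mod_cast h2
    omega
  have hk2S : S / r1 - 1 ≤ k2 := by
    have h1 : ⌈S / r1⌉₊ ≤ k2 + 1 := by omega
    have h2 : (⌈S / r1⌉₊ : ℝ) ≤ k2 + 1 := by exact_mod_cast h1
    linarith
  set B' := B.filter (fun K => d K ≤ r0) with hB'
  let Up : ℕ × ℕ → Conf → Prop := fun K ω =>
    (kup S (d K) ≤ K.1 ∧ anc K (kup S (d K)) ∈ B ∧ r1 ≤ d K) ∧ Ev K (kup S (d K)) ω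
  let Lo : (ℕ × ℕ) × (ℕ × ℕ) → Conf → Prop := fun P ω =>
    ((P.2.1 - P.1.1 ≤ P.2.1 ∧ anc P.2 (P.2.1 - P.1.1) = P.1 ∧ r1 ≤ d P.1 ∧
      lam c S (d P.1) * Real.exp (-(c * (P.2.1 - P.1.1 : ℕ))) ≤ d P.2 ^ 2)) ∧
      Ev P.2 (P.2.1 - P.1.1) ω
  let Lg : ℕ × ℕ → Conf → Prop := fun K ω => (k2 ≤ K.1 ∧ anc K k2 ∈ B) ∧ Ev K k2 ω
  have hmono : Pr V (Fj B d Ev S r0) ≤
      Pr V (fun ω => ((∃ K ∈ B', Up K ω) ∨ ∃ P ∈ B' ×ˢ B, Lo P ω) ∨ ∃ K ∈ B, Lg K ω) := by
    apply E.Pr_mono
    rintro ω - ⟨I, m, hm, hch, hsum, hev⟩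
    have hd' := dichotomy' hc (fun i => d (anc I i)) m
      (fun i hi => hd _ (hch i hi).1) hsum (fun i hi => by
        refine hsm.trans ?_
        have h1 := (hch i hi).2
        have h2 := hd _ (hch i hi).1
        exact div_le_div_of_nonneg_left hS.le (by positivity) (by linarith)) hr1
    rcases hd' with ⟨i0, hi0, hbig, hcase⟩ | hlong
    · left
      have hK0 : anc I i0 ∈ B' := Finset.mem_filter.2 (hch i0 hi0)
      rcases hcase with h | ⟨i, hi, h⟩
      · left
        refine ⟨anc I i0, hK0, ?_⟩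
        have hle : kup S (d (anc I i0)) ≤ m - i0 := by
          unfold kup
          have : ⌈S / (2 * d (anc I i0))⌉₊ ≤ m - i0 + 1 := by
            rw [Nat.ceil_le]
            push_cast [Nat.cast_sub hi0]
            exact h
          omega
        refine ⟨⟨?_, ?_, hbig⟩, ?_⟩
        · show _ ≤ I.1 - i0
          omega
        · rw [anc_anc]
          exact (hch _ (by omega)).1
        · have := hev i0 (i0 + kup S (d (anc I i0))) (by omega) (by omega)
          rwa [Nat.add_sub_cancel_left] at this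
      · right
        refine ⟨(anc I i0, anc I i), Finset.mem_product.2 ⟨hK0, (hch i (hi.trans hi0)).1⟩, ?_⟩
        have e1 : (anc I i).1 - (anc I i0).1 = i0 - i := by
          show (I.1 - i) - (I.1 - i0) = i0 - i
          omega
        refine ⟨⟨?_, ?_, hbig, ?_⟩, ?_⟩
        · exact Nat.sub_le _ _
        · rw [e1, anc_anc]
          congr 1
          omega
        · rw [e1]
          exact h
        · rw [e1]
          exact hev i i0 hi hi0
    · right
      have hk2m : k2 ≤ m := by omega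
      refine ⟨I, ?_, ⟨by omega, (hch k2 hk2m).1⟩, ?_⟩
      · have := (hch 0 (Nat.zero_le _)).1
        rwa [anc_zero] at this
      · have := hev 0 k2 (Nat.zero_le _) hk2m
        rwa [anc_zero, Nat.sub_zero] at this
  refine hmono.trans ((E.Pr_or_le V _ _).trans ?_)
  apply add_le_add
  · refine (E.Pr_or_le V _ _).trans ?_
    rw [Finset.sum_add_distrib]
    apply add_le_add
    · refine (E.Pr_exists_le V B' Up).trans (Finset.sum_le_sum (fun K hK => ?_))
      have hKB : K ∈ B := (Finset.mem_filter.1 hK).1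
      by_cases hcond : kup S (d K) ≤ K.1 ∧ anc K (kup S (d K)) ∈ B ∧ r1 ≤ d K
      · calc Pr V (Up K) ≤ Pr V (Ev K (kup S (d K))) := E.Pr_mono (fun ω _ h => h.2)
          _ ≤ C * Real.exp (-(c * kup S (d K))) := hE K hKB _ hcond.1 hcond.2.1
              (Or.inl hcond.2.2)
          _ ≤ _ := mul_le_mul_of_nonneg_left (exp_kup hc) hC
      · calc Pr V (Up K) ≤ Pr V (fun _ => False) := E.Pr_mono (fun ω _ h => hcond h.1)
          _ = 0 := Pr_false V
          _ ≤ _ := by positivity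
    · refine (E.Pr_exists_le V (B' ×ˢ B) Lo).trans ?_
      rw [Finset.sum_product]
      apply Finset.sum_le_sum
      intro K0 hK0
      have hd0 : 0 < d K0 := hd K0 (Finset.mem_filter.1 hK0).1
      have hl : 0 < lam c S (d K0) := lam_pos hd0
      calc ∑ K ∈ B, Pr V (Lo (K0, K)) ≤ ∑ K ∈ B, C / lam c S (d K0) * d K ^ 2 := by
            apply Finset.sum_le_sum
            intro K hK
            by_cases hcond : K.1 - K0.1 ≤ K.1 ∧ anc K (K.1 - K0.1) = K0 ∧ r1 ≤ d K0 ∧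
                lam c S (d K0) * Real.exp (-(c * (K.1 - K0.1 : ℕ))) ≤ d K ^ 2
            · calc Pr V (Lo (K0, K)) ≤ Pr V (Ev K (K.1 - K0.1)) :=
                    E.Pr_mono (fun ω _ h => h.2)
                _ ≤ C * Real.exp (-(c * (K.1 - K0.1 : ℕ))) := hE K hK _ hcond.1 (by
                    rw [hcond.2.1]; exact (Finset.mem_filter.1 hK0).1) (by
                    rw [hcond.2.1]; exact Or.inr (Or.inl hcond.2.2.1))
                _ ≤ C * (d K ^ 2 / lam c S (d K0)) := by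
                    apply mul_le_mul_of_nonneg_left _ hC
                    rw [le_div_iff₀ hl]
                    linarith [hcond.2.2.2]
                _ = _ := by ring
            · calc Pr V (Lo (K0, K)) ≤ Pr V (fun _ => False) :=
                    E.Pr_mono (fun ω _ h => hcond h.1)
                _ = 0 := Pr_false V
                _ ≤ _ := by positivity
        _ = C / lam c S (d K0) * ∑ K ∈ B, d K ^ 2 := by rw [Finset.mul_sum]
        _ ≤ C / lam c S (d K0) * A := mul_le_mul_of_nonneg_left hA (by positivity)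
        _ = _ := by ring
  · apply E.Pr_exists_le_card
    intro K hK
    by_cases hcond : k2 ≤ K.1 ∧ anc K k2 ∈ B
    · calc Pr V (Lg K) ≤ Pr V (Ev K k2) := E.Pr_mono (fun ω _ h => h.2)
        _ ≤ C * Real.exp (-(c * k2)) := hE K hK _ hcond.1 hcond.2 (Or.inr (Or.inr hk12))
        _ ≤ _ := by
            apply mul_le_mul_of_nonneg_left _ hC
            apply Real.exp_le_exp.2
            nlinarith
    · calc Pr V (Lg K) ≤ Pr V (fun _ => False) := E.Pr_mono (fun ω _ h => hcond h.1)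
        _ = 0 := Pr_false V
        _ ≤ _ := by positivity

/-- numerical part -/
theorem fjord_num {c C A S ε : ℝ} (hc : 0 < c) (hC : 0 ≤ C) (hA0 : 0 ≤ A) (hS : 0 < S)
    (hε : 0 < ε) : ∃ r0 : ℝ, 0 < r0 ∧ cst c ≤ S / (2 * r0) ∧ ∀ (B : Finset (ℕ × ℕ))
      (d : ℕ × ℕ → ℝ), (∀ K ∈ B, 0 < d K) → ∑ K ∈ B, d K ^ 2 ≤ A →
      ∑ K ∈ B with d K ≤ r0,
        (C * (Real.exp c * Real.exp (-(c * (S / (2 * d K))))) + C * A / lam c S (d K)) ≤ ε := by
  set M : ℝ := (C * Real.exp c + C * A * Real.exp (c * cst c)) * (3840 / (c * S) ^ 5) with hM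
  have hM0 : 0 ≤ M := by positivity
  set r0 : ℝ := min 1 (min (S / (2 * cst c)) (ε / (A * M + 1))) with hr0
  have hcst := cst_pos hc
  have hr0pos : 0 < r0 := by
    rw [hr0]
    refine lt_min one_pos (lt_min (by positivity) (by positivity))
  have hr1 : r0 ≤ 1 := min_le_left _ _
  have hr2 : r0 ≤ S / (2 * cst c) := (min_le_right _ _).trans (min_le_left _ _)
  have hr3 : r0 ≤ ε / (A * M + 1) := (min_le_right _ _).trans (min_le_right _ _)
  have hsm : cst c ≤ S / (2 * r0) := by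
    rw [le_div_iff₀ (by positivity)] at hr2 ⊢
    linarith
  refine ⟨r0, hr0pos, hsm, ?_⟩
  intro B d hd hA
  have hterm : ∀ K ∈ B.filter (fun K => d K ≤ r0),
      C * (Real.exp c * Real.exp (-(c * (S / (2 * d K))))) + C * A / lam c S (d K) ≤
        M * r0 * d K ^ 2 := by
    intro K hK
    have hr := hd K (Finset.mem_filter.1 hK).1
    have hle := (Finset.mem_filter.1 hK).2
    set r := d K with hrr
    have ht : 0 < c * (S / (2 * r)) := by positivity
    have h1 := exp_neg_le ht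
    have h2 : 120 / (c * (S / (2 * r))) ^ 5 = 3840 / (c * S) ^ 5 * r ^ 5 := by
      field_simp
      norm_num
    rw [h2] at h1
    have h3 : C * A / lam c S r = C * A * Real.exp (c * cst c) *
        (Real.exp (-(c * (S / (2 * r)))) / r ^ 2) := by
      unfold lam
      have e : Real.exp (c * (S / (2 * r) - cst c)) =
          (Real.exp (c * cst c))⁻¹ * (Real.exp (-(c * (S / (2 * r)))))⁻¹ := by
        rw [← Real.exp_neg, ← Real.exp_neg, ← Real.exp_add]
        congr 1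
        ring
      rw [e]
      have := Real.exp_pos (c * cst c)
      have := Real.exp_pos (-(c * (S / (2 * r))))
      field_simp
    rw [h3]
    set X := 3840 / (c * S) ^ 5 with hX
    have hX0 : 0 ≤ X := by positivity
    have h4 : Real.exp (-(c * (S / (2 * r)))) ≤ X * r0 * r ^ 2 := by
      refine h1.trans ?_
      have : r ^ 5 ≤ r0 * r ^ 2 := by
        have h5 : r ^ 3 ≤ r0 := by
          calc r ^ 3 = r * r ^ 2 := by ring
            _ ≤ r * 1 := mul_le_mul_of_nonneg_left (pow_le_one₀ hr.le (hle.trans hr1)) hr.le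
            _ ≤ r0 := by linarith
        calc r ^ 5 = r ^ 3 * r ^ 2 := by ring
          _ ≤ _ := mul_le_mul_of_nonneg_right h5 (by positivity)
      calc X * r ^ 5 ≤ X * (r0 * r ^ 2) := mul_le_mul_of_nonneg_left this hX0
        _ = _ := by ring
    have h6 : Real.exp (-(c * (S / (2 * r)))) / r ^ 2 ≤ X * r0 * r ^ 2 := by
      rw [div_le_iff₀ (by positivity)]
      refine h1.trans ?_
      have : r ^ 5 ≤ r0 * r ^ 2 * r ^ 2 := by
        calc r ^ 5 = r * (r ^ 2 * r ^ 2) := by ring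
          _ ≤ r0 * (r ^ 2 * r ^ 2) := mul_le_mul_of_nonneg_right hle (by positivity)
          _ = _ := by ring
      calc X * r ^ 5 ≤ X * (r0 * r ^ 2 * r ^ 2) := mul_le_mul_of_nonneg_left this hX0
        _ = _ := by ring
    calc C * (Real.exp c * Real.exp (-(c * (S / (2 * r))))) +
          C * A * Real.exp (c * cst c) * (Real.exp (-(c * (S / (2 * r)))) / r ^ 2)
        ≤ C * (Real.exp c * (X * r0 * r ^ 2)) + C * A * Real.exp (c * cst c) * (X * r0 * r ^ 2) := by
          gcongr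
      _ = M * r0 * r ^ 2 := by rw [hM]; ring
  refine (Finset.sum_le_sum hterm).trans ?_
  rw [← Finset.mul_sum]
  have h7 : ∑ K ∈ B.filter (fun K => d K ≤ r0), d K ^ 2 ≤ A :=
    (Finset.sum_le_sum_of_subset_of_nonneg (Finset.filter_subset _ _)
      (fun _ _ _ => sq_nonneg _)).trans hA
  calc M * r0 * ∑ K ∈ B.filter (fun K => d K ≤ r0), d K ^ 2 ≤ M * r0 * A :=
        mul_le_mul_of_nonneg_left h7 (by positivity)
    _ = A * M * r0 := by ring
    _ ≤ A * M * (ε / (A * M + 1)) := mul_le_mul_of_nonneg_left hr3 (by positivity)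
    _ ≤ ε := by
        have : 0 < A * M + 1 := by positivity
        rw [mul_div_assoc', div_le_iff₀ this]
        nlinarith

/-- **R5, union bound for the fjords**, when the arm bound is only known if one of the two boxes
has size at least `r1` or if they are at least `k1` generations apart. -/
theorem fjord' {c C A S ε : ℝ} (hc : 0 < c) (hC : 0 ≤ C) (hA0 : 0 ≤ A) (hS : 0 < S) (hε : 0 < ε) :
    ∃ r0 : ℝ, 0 < r0 ∧ ∀ (V : Finset Pt) (B : Finset (ℕ × ℕ)) (d : ℕ × ℕ → ℝ)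
      (Ev : ℕ × ℕ → ℕ → Conf → Prop) (r1 : ℝ) (k1 : ℕ), 0 < r1 → (k1 : ℝ) + 1 ≤ S / r1 →
      (∀ K ∈ B, 0 < d K) → ∑ K ∈ B, d K ^ 2 ≤ A →
      (∀ K ∈ B, ∀ k ≤ K.1, anc K k ∈ B → (r1 ≤ d K ∨ r1 ≤ d (anc K k) ∨ k1 ≤ k) →
        Pr V (Ev K k) ≤ C * Real.exp (-(c * k))) →
      Pr V (Fj B d Ev S r0) ≤ ε + B.card * (C * Real.exp (-(c * (S / r1 - 1)))) := by
  obtain ⟨r0, hr0, hsm, hnum⟩ := fjord_num (c := c) (C := C) (A := A) (S := S) (ε := ε)
    hc hC hA0 hS hε
  refine ⟨r0, hr0, ?_⟩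
  intro V B d Ev r1 k1 hr1 hk1 hd hA hE
  have h1 := fjord_union' hc hC hS hsm hr1 hk1 hd hA hE
  have h2 := hnum B d hd hA
  linarith

end Vale.Agent.P155.T733
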