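import Vale.Agent.P155.T733.R6
import Vale.Agent.P155.T211B.Grow
import Vale.Agent.P155.T211B.Fine
import Vale.Agent.P155.N924.Limits
import Vale.Agent.P155.BD276.Inputs
import Vale.Agent.P155.H354.Trace

/-!
# P155, block BD: the boundary estimate from the arm and collar bounds
-/

namespace Vale.Agent.P155.BD

open Metric Set Filter Skel T733 Topology

theorem l1 : L1 := fun _ hb S => fits_ev hb S

theorem l3 : L3 := fun _ ho S _ hz => dU_ge_ev ho S hz

theorem frontier_nonempty {Ω : Set ℂ} (ho : IsOpen Ω) (hb : Bornology.IsBounded Ω)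
    (hne : Ω.Nonempty) : (frontier Ω).Nonempty := by
  rw [nonempty_iff_ne_empty]
  intro h
  have hcl : IsClopen Ω := isClopen_iff_frontier_eq_empty.2 h
  rcases isClopen_iff.1 hcl with h1 | h1
  · exact hne.ne_empty h1
  · rw [h1] at hb
    exact NormedSpace.unbounded_univ ℝ ℂ hb

theorem l2 : L2 := by
  intro Ω ho hb hne S η hη
  filter_upwards [dU_le_ev (frontier_nonempty ho hb hne) S (show 0 < 2 * η by positivity)]
    with n hn z _ hz
  have := hn z hz
  linarith

theorem hgtp : HGTp := by
  obtain ⟨c, hc, h⟩ := T211B.hgt10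
  exact ⟨10, by norm_num, c, hc, h⟩

/-- **The boundary estimate from the arm and collar bounds.** -/
theorem bd_of_arm (hARM : ARMB) (hCOL : COLB) : Q1.BD :=
  bd_of T211B.rmex hgtp BD276.stat hARM hCOL BD276.chain BD276.area trc_ok strc l1 l2 l3

end Vale.Agent.P155.BD
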