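import Vale.Agent.P155.E.Prob

/-!
# P155, BD block R5: the union bound for fjords (vertical chains of dyadic boxes)

Boxes are pairs `(n, j)` (generation, index); the parent of `(n, j)` is `(n - 1, j / 2)`.
`d K` is the Euclidean size of the box `K`; `Ev K k ω` is the event that some loop joins `K` to the
outside of the `k`-th ancestor of `K`.
-/

namespace Vale.Agent.P155.T733

open Finset

/-- the `k`-th ancestor of a dyadic box -/
def anc (K : ℕ × ℕ) (k : ℕ) : ℕ × ℕ := (K.1 - k, K.2 / 2 ^ k)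

theorem anc_anc (K : ℕ × ℕ) (a b : ℕ) : anc (anc K a) b = anc K (a + b) := by
  unfold anc
  simp only [Prod.mk.injEq]
  refine ⟨by omega, ?_⟩
  rw [Nat.div_div_eq_div_mul, pow_add]

theorem anc_zero (K : ℕ × ℕ) : anc K 0 = K := by
  simp [anc]

theorem exp_lt1 {x : ℝ} (h : x < 0) : Real.exp x < 1 := by
  rw [← Real.exp_zero]
  exact Real.exp_lt_exp.2 h

/-- geometric series with a plateau -/
theorem plateau_sum {q : ℝ} (hq0 : 0 ≤ q) (hq1 : q < 1) (i0 m : ℕ) :
    ∑ i ∈ range m, (if i < i0 then (1 : ℝ) else q ^ (i - i0)) ≤ i0 + 1 / (1 - q) := by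
  have h1q : 0 < 1 - q := by linarith
  have hgeo : ∀ k : ℕ, ∑ i ∈ range k, q ^ i ≤ 1 / (1 - q) := by
    intro k
    rw [le_div_iff₀ h1q]
    have := geom_sum_mul_neg q k
    rw [this]
    have : 0 ≤ q ^ k := pow_nonneg hq0 k
    linarith
  rcases le_total m i0 with h | h
  · have : ∑ i ∈ range m, (if i < i0 then (1 : ℝ) else q ^ (i - i0)) = m := by
      rw [Finset.sum_congr rfl (fun i hi => if_pos (lt_of_lt_of_le (Finset.mem_range.1 hi) h))]
      simp
    rw [this]
    have h2 : (m : ℝ) ≤ i0 := by exact_mod_cast h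
    have h3 : 0 ≤ 1 / (1 - q) := by positivity
    linarith
  · obtain ⟨k, rfl⟩ := Nat.exists_eq_add_of_le h
    rw [Finset.sum_range_add]
    have e1 : ∑ i ∈ range i0, (if i < i0 then (1 : ℝ) else q ^ (i - i0)) = i0 := by
      rw [Finset.sum_congr rfl (fun i hi => if_pos (Finset.mem_range.1 hi))]
      simp
    have e2 : ∑ x ∈ range k, (if i0 + x < i0 then (1 : ℝ) else q ^ (i0 + x - i0)) =
        ∑ x ∈ range k, q ^ x := by
      apply Finset.sum_congr rfl
      intro x _
      rw [if_neg (by omega)]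
      congr 1
      omega
    rw [e1, e2]
    linarith [hgeo k]

/-- If `x i ≤ r` and `(x i)² ≤ λ e^{-c i}` for all `i` then the sum of the `x i` is at most
`r (log (λ/r²)/c + 1 + 1/(1-e^{-c/2}))`. -/
theorem path_sum {c r L : ℝ} (hc : 0 < c) (hr : 0 < r) (hL : 0 ≤ L) (x : ℕ → ℝ) (m : ℕ)
    (hx0 : ∀ i < m, x i ≤ r)
    (hx : ∀ i < m, (x i) ^ 2 ≤ r ^ 2 * Real.exp (c * L) * Real.exp (-(c * i))) :
    ∑ i ∈ range m, x i ≤ r * (L + 1 + 1 / (1 - Real.exp (-(c / 2)))) := by
  set q := Real.exp (-(c / 2)) with hq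
  have hq0 : 0 ≤ q := (Real.exp_pos _).le
  have hq1 : q < 1 := by
    rw [hq]
    exact exp_lt1 (by linarith)
  set i0 := ⌈L⌉₊ with hi0
  have hi0L : L ≤ i0 := Nat.le_ceil L
  have hi0L' : (i0 : ℝ) < L + 1 := Nat.ceil_lt_add_one hL
  have key : ∀ i ∈ range m, x i ≤ r * (if i < i0 then (1 : ℝ) else q ^ (i - i0)) := by
    intro i hi
    have hi' := Finset.mem_range.1 hi
    split_ifs with h
    · rw [mul_one]; exact hx0 i hi'
    · push Not at h
      have h1 := hx i hi'
      have h2 : r ^ 2 * Real.exp (c * L) * Real.exp (-(c * i)) ≤ (r * q ^ (i - i0)) ^ 2 := by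
        rw [mul_pow, mul_assoc, ← Real.exp_add]
        apply mul_le_mul_of_nonneg_left _ (by positivity)
        rw [hq, ← Real.exp_nat_mul, ← Real.exp_nat_mul]
        apply Real.exp_le_exp.2
        have h3 : ((i - i0 : ℕ) : ℝ) = i - i0 := by
          rw [Nat.cast_sub h]
        rw [h3]
        push_cast
        nlinarith
      have h4 : 0 ≤ r * q ^ (i - i0) := by positivity
      exact abs_le_of_sq_le_sq' (h1.trans h2) h4 |>.2
  calc ∑ i ∈ range m, x i ≤ ∑ i ∈ range m, r * (if i < i0 then (1 : ℝ) else q ^ (i - i0)) :=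
        Finset.sum_le_sum key
    _ = r * ∑ i ∈ range m, (if i < i0 then (1 : ℝ) else q ^ (i - i0)) := by rw [Finset.mul_sum]
    _ ≤ r * (i0 + 1 / (1 - q)) := mul_le_mul_of_nonneg_left (plateau_sum hq0 hq1 i0 m) hr.le
    _ ≤ _ := mul_le_mul_of_nonneg_left (by linarith) hr.le

/-- the constant of the geometric series -/
noncomputable def cst (c : ℝ) : ℝ := 2 + 1 / (1 - Real.exp (-(c / 2)))

theorem cst_pos {c : ℝ} (hc : 0 < c) : 0 < cst c := by
  unfold cst
  have : Real.exp (-(c / 2)) < 1 := exp_lt1 (by linarith)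
  have : 0 < 1 - Real.exp (-(c / 2)) := by linarith
  positivity

/-- the threshold `λ(r)` -/
noncomputable def lam (c S r : ℝ) : ℝ := r ^ 2 * Real.exp (c * (S / (2 * r) - cst c))

theorem lam_pos {c S r : ℝ} (hr : 0 < r) : 0 < lam c S r := by
  unfold lam; positivity

/-- **Dichotomy** for a chain `x 0, …, x m` of sizes with total at least `S`: with `r` the maximal
size, attained at `i0`, either there are at least `S/(2r)` indices `≥ i0`, or some index `i ≤ i0`
has `λ(r) e^{-c (i0 - i)} ≤ (x i)²`. -/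
theorem dichotomy {c S : ℝ} (hc : 0 < c) (x : ℕ → ℝ) (m : ℕ) (hpos : ∀ i ≤ m, 0 < x i)
    (hS : S ≤ ∑ i ∈ range (m + 1), x i) (hsmall : ∀ i ≤ m, cst c ≤ S / (2 * x i)) :
    ∃ i0 ≤ m, S / (2 * x i0) ≤ m - i0 + 1 ∨
      ∃ i ≤ i0, lam c S (x i0) * Real.exp (-(c * (i0 - i : ℕ))) ≤ (x i) ^ 2 := by
  obtain ⟨i0, hi0, hmax⟩ := Finset.exists_max_image (range (m + 1)) x ⟨0, by simp⟩
  have hi0' : i0 ≤ m := by
    have := Finset.mem_range.1 hi0
    omega
  refine ⟨i0, hi0', ?_⟩
  by_contra hcon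
  push Not at hcon
  obtain ⟨h1, h2⟩ := hcon
  set r := x i0 with hr
  have hr0 : 0 < r := hpos i0 hi0'
  -- the part below
  have hlow : ∑ i ∈ range (i0 + 1), x (i0 - i) ≤ S / 2 - r := by
    have hp := path_sum hc hr0 (L := S / (2 * r) - cst c) (by
      have := hsmall i0 hi0'
      rw [← hr] at this
      linarith) (fun i => x (i0 - i)) (i0 + 1) (fun i hi => hmax _ (by
        rw [Finset.mem_range]; omega)) (fun i hi => by
        have h3 := h2 (i0 - i) (by omega)
        have h4 : i0 - (i0 - i) = i := by omega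
        rw [h4] at h3
        unfold lam at h3
        exact h3.le)
    refine hp.trans (le_of_eq ?_)
    unfold cst
    field_simp
    ring
  have hrefl : ∑ i ∈ range (i0 + 1), x (i0 - i) = ∑ i ∈ range (i0 + 1), x i := by
    rw [← Finset.sum_range_reflect]
    apply Finset.sum_congr rfl
    intro i hi
    have := Finset.mem_range.1 hi
    congr 1
    omega
  rw [hrefl] at hlow
  -- the part above
  obtain ⟨k, rfl⟩ := Nat.exists_eq_add_of_le hi0'
  have hsplit : ∑ i ∈ range (i0 + k + 1), x i =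
      ∑ i ∈ range (i0 + 1), x i + ∑ i ∈ range k, x (i0 + 1 + i) := by
    rw [← Finset.sum_range_add]
    congr 2
    omega
  have hup : ∑ i ∈ range k, x (i0 + 1 + i) ≤ k * r := by
    calc ∑ i ∈ range k, x (i0 + 1 + i) ≤ ∑ _i ∈ range k, r := Finset.sum_le_sum (fun i hi => by
          apply hmax
          have := Finset.mem_range.1 hi
          rw [Finset.mem_range]; omega)
      _ = k * r := by simp
  have h5 : S / (2 * r) > k + 1 := by
    have e : ((i0 + k : ℕ) : ℝ) - i0 + 1 = k + 1 := by push_cast; ring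
    rw [e] at h1
    exact h1
  have h6 : (k + 1) * r < S / 2 := by
    rw [gt_iff_lt, lt_div_iff₀ (by positivity)] at h5
    linarith
  rw [hsplit] at hS
  linarith

/-- the number of levels used above the maximal box -/
noncomputable def kup (S r : ℝ) : ℕ := ⌈S / (2 * r)⌉₊ - 1

theorem exp_kup {c S r : ℝ} (hc : 0 < c) :
    Real.exp (-(c * kup S r)) ≤ Real.exp c * Real.exp (-(c * (S / (2 * r)))) := by
  rw [← Real.exp_add]
  apply Real.exp_le_exp.2
  have h1 : S / (2 * r) ≤ ⌈S / (2 * r)⌉₊ := Nat.le_ceil _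
  have h2 : (⌈S / (2 * r)⌉₊ : ℝ) ≤ kup S r + 1 := by
    have : ⌈S / (2 * r)⌉₊ ≤ kup S r + 1 := by
      unfold kup; omega
    exact_mod_cast this
  nlinarith

/-- The fjord event: a vertical chain of boxes of sizes at most `r0`, with total size at least
`S`, such that the loops of `ω` join all pairs of the chain. -/
def Fj (B : Finset (ℕ × ℕ)) (d : ℕ × ℕ → ℝ) (Ev : ℕ × ℕ → ℕ → Conf → Prop) (S r0 : ℝ)
    (ω : Conf) : Prop :=
  ∃ (I : ℕ × ℕ) (m : ℕ), m ≤ I.1 ∧ (∀ i ≤ m, anc I i ∈ B ∧ d (anc I i) ≤ r0) ∧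
    S ≤ ∑ i ∈ range (m + 1), d (anc I i) ∧
    ∀ i i' : ℕ, i ≤ i' → i' ≤ m → Ev (anc I i) (i' - i) ω

theorem fjord_union {V : Finset Pt} {B : Finset (ℕ × ℕ)} {d : ℕ × ℕ → ℝ}
    {Ev : ℕ × ℕ → ℕ → Conf → Prop} {c C A S r0 : ℝ} (hc : 0 < c) (hC : 0 ≤ C) (hS : 0 < S)
    (hsm : cst c ≤ S / (2 * r0)) (hd : ∀ K ∈ B, 0 < d K)
    (hA : ∑ K ∈ B, d K ^ 2 ≤ A)
    (hE : ∀ K ∈ B, ∀ k ≤ K.1, anc K k ∈ B → Pr V (Ev K k) ≤ C * Real.exp (-(c * k))) :
    Pr V (Fj B d Ev S r0) ≤ ∑ K ∈ B with d K ≤ r0,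
      (C * (Real.exp c * Real.exp (-(c * (S / (2 * d K))))) + C * A / lam c S (d K)) := by
  classical
  set B' := B.filter (fun K => d K ≤ r0) with hB'
  let Up : ℕ × ℕ → Conf → Prop := fun K ω =>
    (kup S (d K) ≤ K.1 ∧ anc K (kup S (d K)) ∈ B) ∧ Ev K (kup S (d K)) ω
  let Lo : (ℕ × ℕ) × (ℕ × ℕ) → Conf → Prop := fun P ω =>
    ((P.2.1 - P.1.1 ≤ P.2.1 ∧ anc P.2 (P.2.1 - P.1.1) = P.1 ∧
      lam c S (d P.1) * Real.exp (-(c * (P.2.1 - P.1.1 : ℕ))) ≤ d P.2 ^ 2)) ∧
      Ev P.2 (P.2.1 - P.1.1) ω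
  have hmono : Pr V (Fj B d Ev S r0) ≤
      Pr V (fun ω => (∃ K ∈ B', Up K ω) ∨ ∃ P ∈ B' ×ˢ B, Lo P ω) := by
    apply E.Pr_mono
    rintro ω - ⟨I, m, hm, hch, hsum, hev⟩
    obtain ⟨i0, hi0, hcase⟩ := dichotomy hc (fun i => d (anc I i)) m
      (fun i hi => hd _ (hch i hi).1) hsum (fun i hi => by
        refine hsm.trans ?_
        have h1 := (hch i hi).2
        have h2 := hd _ (hch i hi).1
        exact div_le_div_of_nonneg_left hS.le (by positivity) (by linarith))
    have hK0 : anc I i0 ∈ B' := Finset.mem_filter.2 (hch i0 hi0)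
    rcases hcase with h | ⟨i, hi, h⟩
    · left
      refine ⟨anc I i0, hK0, ?_⟩
      have hle : kup S (d (anc I i0)) ≤ m - i0 := by
        unfold kup
        have : ⌈S / (2 * d (anc I i0))⌉₊ ≤ m - i0 + 1 := by
          rw [Nat.ceil_le]
          push_cast [Nat.cast_sub hi0]
          exact h
        omega
      refine ⟨⟨?_, ?_⟩, ?_⟩
      · show _ ≤ I.1 - i0
        omega
      · rw [anc_anc]
        exact (hch _ (by omega)).1
      · have := hev i0 (i0 + kup S (d (anc I i0))) (by omega) (by omega)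
        rwa [Nat.add_sub_cancel_left] at this
    · right
      refine ⟨(anc I i0, anc I i), Finset.mem_product.2 ⟨hK0, (hch i (hi.trans hi0)).1⟩, ?_⟩
      have e1 : (anc I i).1 - (anc I i0).1 = i0 - i := by
        show (I.1 - i) - (I.1 - i0) = i0 - i
        omega
      refine ⟨⟨?_, ?_, ?_⟩, ?_⟩
      · exact Nat.sub_le _ _
      · rw [e1, anc_anc]
        congr 1
        omega
      · rw [e1]
        exact h
      · rw [e1]
        exact hev i i0 hi hi0
  refine hmono.trans ((E.Pr_or_le V _ _).trans ?_)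
  rw [Finset.sum_add_distrib]
  apply add_le_add
  · refine (E.Pr_exists_le V B' Up).trans (Finset.sum_le_sum (fun K hK => ?_))
    have hKB : K ∈ B := (Finset.mem_filter.1 hK).1
    by_cases hcond : kup S (d K) ≤ K.1 ∧ anc K (kup S (d K)) ∈ B
    · calc Pr V (Up K) ≤ Pr V (Ev K (kup S (d K))) := E.Pr_mono (fun ω _ h => h.2)
        _ ≤ C * Real.exp (-(c * kup S (d K))) := hE K hKB _ hcond.1 hcond.2
        _ ≤ _ := mul_le_mul_of_nonneg_left (exp_kup hc) hC
    · calc Pr V (Up K) ≤ Pr V (fun _ => False) := E.Pr_mono (fun ω _ h => hcond h.1)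
        _ = 0 := by
            rw [E.Pr_eq_avg]
            simp [J.avg]
        _ ≤ _ := by positivity
  · refine (E.Pr_exists_le V (B' ×ˢ B) Lo).trans ?_
    rw [Finset.sum_product]
    apply Finset.sum_le_sum
    intro K0 hK0
    have hd0 : 0 < d K0 := hd K0 (Finset.mem_filter.1 hK0).1
    have hl : 0 < lam c S (d K0) := lam_pos hd0
    calc ∑ K ∈ B, Pr V (Lo (K0, K)) ≤ ∑ K ∈ B, C / lam c S (d K0) * d K ^ 2 := by
          apply Finset.sum_le_sum
          intro K hK
          by_cases hcond : K.1 - K0.1 ≤ K.1 ∧ anc K (K.1 - K0.1) = K0 ∧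
              lam c S (d K0) * Real.exp (-(c * (K.1 - K0.1 : ℕ))) ≤ d K ^ 2
          · calc Pr V (Lo (K0, K)) ≤ Pr V (Ev K (K.1 - K0.1)) := E.Pr_mono (fun ω _ h => h.2)
              _ ≤ C * Real.exp (-(c * (K.1 - K0.1 : ℕ))) := hE K hK _ hcond.1 (by
                  rw [hcond.2.1]; exact (Finset.mem_filter.1 hK0).1)
              _ ≤ C * (d K ^ 2 / lam c S (d K0)) := by
                  apply mul_le_mul_of_nonneg_left _ hC
                  rw [le_div_iff₀ hl]
                  linarith [hcond.2.2]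
              _ = _ := by ring
          · calc Pr V (Lo (K0, K)) ≤ Pr V (fun _ => False) := E.Pr_mono (fun ω _ h => hcond h.1)
              _ = 0 := by
                  rw [E.Pr_eq_avg]
                  simp [J.avg]
              _ ≤ _ := by positivity
      _ = C / lam c S (d K0) * ∑ K ∈ B, d K ^ 2 := by rw [Finset.mul_sum]
      _ ≤ C / lam c S (d K0) * A := mul_le_mul_of_nonneg_left hA (by positivity)
      _ = _ := by ring

/-- `e^{-t} ≤ 120 / t⁵` -/
theorem exp_neg_le {t : ℝ} (ht : 0 < t) : Real.exp (-t) ≤ 120 / t ^ 5 := by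
  have h := Real.pow_div_factorial_le_exp t ht.le 5
  have h5 : (Nat.factorial 5 : ℝ) = 120 := by norm_num [Nat.factorial]
  rw [h5] at h
  rw [Real.exp_neg, inv_eq_one_div, div_le_div_iff₀ (Real.exp_pos _) (by positivity)]
  rw [div_le_iff₀ (by norm_num)] at h
  linarith

/-- **R5, union bound for the fjords.** -/
theorem fjord {c C A S ε : ℝ} (hc : 0 < c) (hC : 0 ≤ C) (hA0 : 0 ≤ A) (hS : 0 < S) (hε : 0 < ε) :
    ∃ r0 : ℝ, 0 < r0 ∧ ∀ (V : Finset Pt) (B : Finset (ℕ × ℕ)) (d : ℕ × ℕ → ℝ)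
      (Ev : ℕ × ℕ → ℕ → Conf → Prop), (∀ K ∈ B, 0 < d K) → ∑ K ∈ B, d K ^ 2 ≤ A →
      (∀ K ∈ B, ∀ k ≤ K.1, anc K k ∈ B → Pr V (Ev K k) ≤ C * Real.exp (-(c * k))) →
      Pr V (Fj B d Ev S r0) ≤ ε := by
  set M : ℝ := (C * Real.exp c + C * A * Real.exp (c * cst c)) * (3840 / (c * S) ^ 5) with hM
  have hM0 : 0 ≤ M := by positivity
  set r0 : ℝ := min 1 (min (S / (2 * cst c)) (ε / (A * M + 1))) with hr0
  have hcst := cst_pos hc
  have hr0pos : 0 < r0 := by
    rw [hr0]
    refine lt_min one_pos (lt_min (by positivity) (by positivity))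
  have hr1 : r0 ≤ 1 := min_le_left _ _
  have hr2 : r0 ≤ S / (2 * cst c) := (min_le_right _ _).trans (min_le_left _ _)
  have hr3 : r0 ≤ ε / (A * M + 1) := (min_le_right _ _).trans (min_le_right _ _)
  refine ⟨r0, hr0pos, ?_⟩
  intro V B d Ev hd hA hE
  have hsm : cst c ≤ S / (2 * r0) := by
    rw [le_div_iff₀ (by positivity)] at hr2 ⊢
    linarith
  refine (fjord_union hc hC hS hsm hd hA hE).trans ?_
  have hterm : ∀ K ∈ B.filter (fun K => d K ≤ r0),
      C * (Real.exp c * Real.exp (-(c * (S / (2 * d K))))) + C * A / lam c S (d K) ≤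
        M * r0 * d K ^ 2 := by
    intro K hK
    have hr := hd K (Finset.mem_filter.1 hK).1
    have hle := (Finset.mem_filter.1 hK).2
    set r := d K with hrr
    have ht : 0 < c * (S / (2 * r)) := by positivity
    have h1 := exp_neg_le ht
    have h2 : 120 / (c * (S / (2 * r))) ^ 5 = 3840 / (c * S) ^ 5 * r ^ 5 := by
      field_simp
      norm_num
    rw [h2] at h1
    have h3 : C * A / lam c S r = C * A * Real.exp (c * cst c) *
        (Real.exp (-(c * (S / (2 * r)))) / r ^ 2) := by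
      unfold lam
      have e : Real.exp (c * (S / (2 * r) - cst c)) =
          (Real.exp (c * cst c))⁻¹ * (Real.exp (-(c * (S / (2 * r)))))⁻¹ := by
        rw [← Real.exp_neg, ← Real.exp_neg, ← Real.exp_add]
        congr 1
        ring
      rw [e]
      have := Real.exp_pos (c * cst c)
      have := Real.exp_pos (-(c * (S / (2 * r))))
      field_simp
    rw [h3]
    set X := 3840 / (c * S) ^ 5 with hX
    have hX0 : 0 ≤ X := by positivity
    have h4 : Real.exp (-(c * (S / (2 * r)))) ≤ X * r0 * r ^ 2 := by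
      refine h1.trans ?_
      have : r ^ 5 ≤ r0 * r ^ 2 := by
        have h5 : r ^ 3 ≤ r0 := by
          calc r ^ 3 = r * r ^ 2 := by ring
            _ ≤ r * 1 := mul_le_mul_of_nonneg_left (pow_le_one₀ hr.le (hle.trans hr1)) hr.le
            _ ≤ r0 := by linarith
        calc r ^ 5 = r ^ 3 * r ^ 2 := by ring
          _ ≤ _ := mul_le_mul_of_nonneg_right h5 (by positivity)
      calc X * r ^ 5 ≤ X * (r0 * r ^ 2) := mul_le_mul_of_nonneg_left this hX0
        _ = _ := by ring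
    have h6 : Real.exp (-(c * (S / (2 * r)))) / r ^ 2 ≤ X * r0 * r ^ 2 := by
      rw [div_le_iff₀ (by positivity)]
      refine h1.trans ?_
      have : r ^ 5 ≤ r0 * r ^ 2 * r ^ 2 := by
        calc r ^ 5 = r * (r ^ 2 * r ^ 2) := by ring
          _ ≤ r0 * (r ^ 2 * r ^ 2) := mul_le_mul_of_nonneg_right hle (by positivity)
          _ = _ := by ring
      calc X * r ^ 5 ≤ X * (r0 * r ^ 2 * r ^ 2) := mul_le_mul_of_nonneg_left this hX0
        _ = _ := by ring
    calc C * (Real.exp c * Real.exp (-(c * (S / (2 * r))))) +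
          C * A * Real.exp (c * cst c) * (Real.exp (-(c * (S / (2 * r)))) / r ^ 2)
        ≤ C * (Real.exp c * (X * r0 * r ^ 2)) + C * A * Real.exp (c * cst c) * (X * r0 * r ^ 2) := by
          gcongr
      _ = M * r0 * r ^ 2 := by rw [hM]; ring
  refine (Finset.sum_le_sum hterm).trans ?_
  rw [← Finset.mul_sum]
  have h7 : ∑ K ∈ B.filter (fun K => d K ≤ r0), d K ^ 2 ≤ A :=
    (Finset.sum_le_sum_of_subset_of_nonneg (Finset.filter_subset _ _)
      (fun _ _ _ => sq_nonneg _)).trans hA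
  calc M * r0 * ∑ K ∈ B.filter (fun K => d K ≤ r0), d K ^ 2 ≤ M * r0 * A :=
        mul_le_mul_of_nonneg_left h7 (by positivity)
    _ = A * M * r0 := by ring
    _ ≤ A * M * (ε / (A * M + 1)) := mul_le_mul_of_nonneg_left hr3 (by positivity)
    _ ≤ ε := by
        have : 0 < A * M + 1 := by positivity
        rw [mul_div_assoc', div_le_iff₀ this]
        nlinarith

end Vale.Agent.P155.T733
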