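import Vale.Agent.P155.T733.Boxes
import Vale.Agent.P155.T733.Fjord

/-!
# P155, BD block R4: from the pair bound to the arm bound
-/

namespace Vale.Agent.P155.T733

open Finset

/-- Weighted union bound: if some loop has weight at least `α₁` in the boxes of `B₁` it visits and
at least `α₂` in the boxes of `B₂` it visits. -/
theorem weighted_union {V : Finset Pt} {ι : Type*} (B1 B2 : Finset ι)
    (vis : Conf → Set Pt → ι → Prop) (g : ι → ℝ) (hg : ∀ i, 0 ≤ g i) {α1 α2 : ℝ} (h1 : 0 < α1)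
    (h2 : 0 < α2) (Q : Conf → Prop)
    (hE : ∀ ω ∈ DD V, Q ω → ∃ L ∈ Loops ω, ∃ S1 ⊆ B1, ∃ S2 ⊆ B2, (∀ i ∈ S1, vis ω L i) ∧
      (∀ i ∈ S2, vis ω L i) ∧ α1 ≤ ∑ i ∈ S1, g i ∧ α2 ≤ ∑ i ∈ S2, g i) :
    Pr V Q ≤ (α1 * α2)⁻¹ * ∑ i ∈ B1, ∑ j ∈ B2, g i * g j *
      Pr V (fun ω => ∃ L ∈ Loops ω, vis ω L i ∧ vis ω L j) := by
  classical
  have e : ∀ i j, Pr V (fun ω => ∃ L ∈ Loops ω, vis ω L i ∧ vis ω L j) =
      J.avg (DD V) (fun ω => if ∃ L ∈ Loops ω, vis ω L i ∧ vis ω L j then (1 : ℝ) else 0) :=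
    fun i j => E.Pr_eq_avg V _
  rw [E.Pr_eq_avg]
  simp only [e, ← J.avg_mul_left]
  simp only [← J.avg_sum]
  rw [← J.avg_mul_left]
  apply J.avg_mono
  intro ω hω
  have hnn : 0 ≤ ∑ i ∈ B1, ∑ j ∈ B2, g i * g j *
      (if ∃ L ∈ Loops ω, vis ω L i ∧ vis ω L j then (1 : ℝ) else 0) := by
    apply Finset.sum_nonneg; intro i _
    apply Finset.sum_nonneg; intro j _
    have := hg i
    have := hg j
    split_ifs <;> positivity
  split_ifs with hEω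
  swap
  · positivity
  obtain ⟨L, hL, S1, hS1, S2, hS2, v1, v2, s1, s2⟩ := hE ω hω hEω
  rw [inv_mul_eq_div, le_div_iff₀ (by positivity), one_mul]
  calc α1 * α2 ≤ (∑ i ∈ S1, g i) * ∑ j ∈ S2, g j :=
        mul_le_mul s1 s2 h2.le (h1.le.trans s1)
    _ = ∑ i ∈ S1, ∑ j ∈ S2, g i * g j := Finset.sum_mul_sum _ _ _ _
    _ = ∑ i ∈ S1, ∑ j ∈ S2, g i * g j *
        (if ∃ L ∈ Loops ω, vis ω L i ∧ vis ω L j then (1 : ℝ) else 0) := by
        apply Finset.sum_congr rfl; intro i hi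
        apply Finset.sum_congr rfl; intro j hj
        rw [if_pos ⟨L, hL, v1 i hi, v2 j hj⟩, mul_one]
    _ ≤ ∑ i ∈ S1, ∑ j ∈ B2, g i * g j *
        (if ∃ L ∈ Loops ω, vis ω L i ∧ vis ω L j then (1 : ℝ) else 0) := by
        apply Finset.sum_le_sum; intro i _
        apply Finset.sum_le_sum_of_subset_of_nonneg hS2
        intro j _ _
        have := hg i
        have := hg j
        split_ifs <;> positivity
    _ ≤ _ := by
        apply Finset.sum_le_sum_of_subset_of_nonneg hS1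
        intro i _ _
        apply Finset.sum_nonneg; intro j _
        have := hg i
        have := hg j
        split_ifs <;> positivity

/-- geometric sum over the generations `m ≤ N` with `2⁻ᵐ ≤ s` -/
theorem gen_sum {c : ℝ} (hc : 0 < c) (N : ℕ) {s : ℝ} (hs : 0 < s) :
    ∑ m ∈ range (N + 1) with ((1 / 2 : ℝ) ^ m ≤ s), ((1 / 2 : ℝ) ^ c) ^ m ≤
      s ^ c / (1 - (1 / 2 : ℝ) ^ c) := by
  classical
  set β := (1 / 2 : ℝ) ^ c with hβ
  have hβ0 : 0 < β := by positivity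
  have hβ1 : β < 1 := Real.rpow_lt_one (by norm_num) (by norm_num) hc
  have h1β : 0 < 1 - β := by linarith
  rcases ((range (N + 1)).filter (fun m => (1 / 2 : ℝ) ^ m ≤ s)).eq_empty_or_nonempty with h0 | h0
  · rw [h0, Finset.sum_empty]
    positivity
  set m0 := ((range (N + 1)).filter (fun m => (1 / 2 : ℝ) ^ m ≤ s)).min' h0 with hm0
  have hm0s : (1 / 2 : ℝ) ^ m0 ≤ s := (Finset.mem_filter.1 (Finset.min'_mem _ h0)).2
  have hsub : (range (N + 1)).filter (fun m => (1 / 2 : ℝ) ^ m ≤ s) ⊆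
      (range (N + 1)).map (addLeftEmbedding m0) := by
    intro m hm
    have h1 : m0 ≤ m := Finset.min'_le _ m hm
    rw [Finset.mem_map]
    refine ⟨m - m0, ?_, ?_⟩
    · have := Finset.mem_range.1 (Finset.mem_filter.1 hm).1
      rw [Finset.mem_range]; omega
    · simp only [addLeftEmbedding_apply]; omega
  calc ∑ m ∈ range (N + 1) with ((1 / 2 : ℝ) ^ m ≤ s), β ^ m
      ≤ ∑ m ∈ (range (N + 1)).map (addLeftEmbedding m0), β ^ m :=
        Finset.sum_le_sum_of_subset_of_nonneg hsub (fun _ _ _ => by positivity)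
    _ = β ^ m0 * ∑ i ∈ range (N + 1), β ^ i := by
        rw [Finset.sum_map, Finset.mul_sum]
        apply Finset.sum_congr rfl
        intro i _
        simp only [addLeftEmbedding_apply, pow_add]
    _ ≤ s ^ c * (1 / (1 - β)) := by
        apply mul_le_mul _ _ (Finset.sum_nonneg (fun _ _ => by positivity)) (by positivity)
        · rw [hβ, ← Real.rpow_natCast, ← Real.rpow_mul (by norm_num), mul_comm c,
            Real.rpow_mul (by norm_num), Real.rpow_natCast]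
          exact Real.rpow_le_rpow (by positivity) hm0s hc.le
        · rw [le_div_iff₀ h1β, geom_sum_mul_neg]
          have : 0 ≤ β ^ (N + 1) := by positivity
          linarith
    _ = _ := by ring

/-- the sum of `2^{-m(1+c)}` over the boxes which meet the closed disc of radius `ρ` around a point
of the unit circle -/
theorem near_sum {c : ℝ} (hc : 0 < c) (N : ℕ) {ξ : ℂ} (hξ : ‖ξ‖ = 1) {ρ : ℝ} (hρ : 0 < ρ)
    (S : Finset (ℕ × ℕ)) (hS : ∀ K ∈ S, K ∈ boxes N ∧ ∃ w ∈ dbox K, ‖w - ξ‖ ≤ ρ) :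
    ∑ K ∈ S, (1 / 2 : ℝ) ^ K.1 * ((1 / 2 : ℝ) ^ c) ^ K.1 ≤
      13 * ρ * ((2 * ρ) ^ c / (1 - (1 / 2 : ℝ) ^ c)) := by
  classical
  set β := (1 / 2 : ℝ) ^ c with hβ
  have hβ0 : 0 < β := by positivity
  -- the generations
  have hgen : ∀ K ∈ S, (1 / 2 : ℝ) ^ K.1 ≤ 2 * ρ := by
    intro K hK
    obtain ⟨-, w, ⟨θ, t, -, -, h3, h4, rfl⟩, hw⟩ := hS K hK
    have h5 : t ≤ ρ := by
      have k1 : ‖ξ‖ - ‖((1 - t : ℝ) : ℂ) * ee θ‖ ≤ ρ := by
        refine le_trans ?_ hw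
        rw [norm_sub_rev]
        exact norm_sub_norm_le _ _
      rw [hξ, norm_mul, norm_ee, mul_one, norm_real_sub, abs_of_nonneg] at k1
      · linarith
      · have : (1 / 2 : ℝ) ^ K.1 ≤ 1 := pow_le_one₀ (by norm_num) (by norm_num)
        linarith
    rw [pow_succ] at h3
    linarith
  have hmaps : ∀ K ∈ S, K.1 ∈ (range (N + 1)).filter (fun m => (1 / 2 : ℝ) ^ m ≤ 2 * ρ) := by
    intro K hK
    rw [Finset.mem_filter, Finset.mem_range]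
    exact ⟨Nat.lt_succ_iff.2 (mem_boxes.1 (hS K hK).1).1, hgen K hK⟩
  rw [← Finset.sum_fiberwise_of_maps_to hmaps]
  calc ∑ m ∈ range (N + 1) with ((1 / 2 : ℝ) ^ m ≤ 2 * ρ),
        ∑ K ∈ S with K.1 = m, (1 / 2 : ℝ) ^ K.1 * β ^ K.1
      ≤ ∑ m ∈ range (N + 1) with ((1 / 2 : ℝ) ^ m ≤ 2 * ρ), 13 * ρ * β ^ m := by
        apply Finset.sum_le_sum
        intro m hm
        have hm2 := (Finset.mem_filter.1 hm).2
        have e1 : ∑ K ∈ S with K.1 = m, (1 / 2 : ℝ) ^ K.1 * β ^ K.1 =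
            (S.filter (fun K => K.1 = m)).card * ((1 / 2 : ℝ) ^ m * β ^ m) := by
          rw [Finset.sum_congr rfl (fun K hK => by rw [(Finset.mem_filter.1 hK).2]),
            Finset.sum_const, nsmul_eq_mul]
        rw [e1]
        have hcard : (((S.filter (fun K => K.1 = m)).image Prod.snd).card : ℝ) ≤
            ρ * 2 ^ m + 6 := by
          apply count_boxes m ξ ρ hρ.le
          intro j hj
          obtain ⟨K, hK, rfl⟩ := Finset.mem_image.1 hj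
          have hKS := (Finset.mem_filter.1 hK).1
          have hKm := (Finset.mem_filter.1 hK).2
          obtain ⟨hb, hw⟩ := hS K hKS
          refine ⟨?_, ?_⟩
          · rw [← hKm]; exact (mem_boxes.1 hb).2
          · rw [← hKm]; exact hw
        have hinj : ((S.filter (fun K => K.1 = m)).image Prod.snd).card =
            (S.filter (fun K => K.1 = m)).card := by
          apply Finset.card_image_of_injOn
          intro K hK K' hK' h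
          have h1 := (Finset.mem_filter.1 hK).2
          have h2 := (Finset.mem_filter.1 hK').2
          exact Prod.ext (h1.trans h2.symm) h
        rw [hinj] at hcard
        have h2m : (1 / 2 : ℝ) ^ m * 2 ^ m = 1 := by rw [← mul_pow]; norm_num
        have h2m0 : (0 : ℝ) < 2 ^ m := by positivity
        have hone : 1 ≤ 2 * ρ * 2 ^ m := by
          rw [← h2m]
          exact mul_le_mul_of_nonneg_right hm2 h2m0.le
        calc ((S.filter (fun K => K.1 = m)).card : ℝ) * ((1 / 2 : ℝ) ^ m * β ^ m)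
            ≤ (13 * ρ * 2 ^ m) * ((1 / 2 : ℝ) ^ m * β ^ m) := by
              apply mul_le_mul_of_nonneg_right _ (by positivity)
              linarith
          _ = 13 * ρ * β ^ m * ((1 / 2 : ℝ) ^ m * 2 ^ m) := by ring
          _ = _ := by rw [h2m, mul_one]
    _ = 13 * ρ * ∑ m ∈ range (N + 1) with ((1 / 2 : ℝ) ^ m ≤ 2 * ρ), β ^ m := by
        rw [Finset.mul_sum]
    _ ≤ _ := by
        apply mul_le_mul_of_nonneg_left _ (by positivity)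
        exact gen_sum hc N (by positivity)

/-- traces of the loops in the disc -/
structure TrOK (V : Finset Pt) (tr : Conf → Set Pt → Set ℂ) (N : ℕ) : Prop where
  conn : ∀ ω ∈ DD V, ∀ L ∈ Loops ω, IsPreconnected (tr ω L)
  deep : ∀ ω ∈ DD V, ∀ L ∈ Loops ω, ∀ w ∈ tr ω L, (1 / 2 : ℝ) ^ N ≤ 1 - ‖w‖

/-- probability that one loop visits the two boxes -/
noncomputable def pv (V : Finset Pt) (tr : Conf → Set Pt → Set ℂ) (K K' : ℕ × ℕ) : ℝ :=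
  Pr V (fun ω => ∃ L ∈ Loops ω, (tr ω L ∩ dbox K).Nonempty ∧ (tr ω L ∩ dbox K').Nonempty)

/-- boxes which meet the closed annulus of radii `a`, `2a` around `ξ` -/
def MeetsAnn (ξ : ℂ) (a : ℝ) (K : ℕ × ℕ) : Prop :=
  ∃ w ∈ dbox K, a ≤ ‖w - ξ‖ ∧ ‖w - ξ‖ ≤ 2 * a

/-- the constant of the arm bound -/
noncomputable def cArm (c : ℝ) : ℝ := 196 * (26 * (1 / (1 - (1 / 2 : ℝ) ^ c))) ^ 2

theorem cArm_nonneg (c : ℝ) : 0 ≤ cArm c := by
  unfold cArm; positivity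

/-- **Two annuli.** -/
theorem two_annuli {V : Finset Pt} {tr : Conf → Set Pt → Set ℂ} {N : ℕ} (hT : TrOK V tr N)
    {c CP : ℝ} (hc : 0 < c) (hCP : 0 ≤ CP) {ξ1 ξ2 : ℂ} (hξ1 : ‖ξ1‖ = 1) (hξ2 : ‖ξ2‖ = 1)
    {a1 a2 l : ℝ} (h1 : 0 < a1) (h2 : 0 < a2) (hl : 0 < l)
    (hpair : ∀ K ∈ boxes N, ∀ K' ∈ boxes N, MeetsAnn ξ1 a1 K → MeetsAnn ξ2 a2 K' →
      pv V tr K K' ≤ CP * (((1 / 2 : ℝ) ^ c) ^ K.1 * ((1 / 2 : ℝ) ^ c) ^ K'.1 / (l ^ 2) ^ c))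
    (Q : Conf → Prop)
    (hE : ∀ ω ∈ DD V, Q ω → ∃ L ∈ Loops ω, (∃ w ∈ tr ω L, ‖w - ξ1‖ ≤ a1) ∧
      (∃ w ∈ tr ω L, 2 * a1 ≤ ‖w - ξ1‖) ∧ (∃ w ∈ tr ω L, ‖w - ξ2‖ ≤ a2) ∧
      ∃ w ∈ tr ω L, 2 * a2 ≤ ‖w - ξ2‖) :
    Pr V Q ≤ CP * cArm c * (16 * a1 * a2 / l ^ 2) ^ c := by
  classical
  set β := (1 / 2 : ℝ) ^ c with hβ
  have hβ0 : 0 < β := by positivity
  have hβ1 : β < 1 := Real.rpow_lt_one (by norm_num) (by norm_num) hc
  have h1β : 0 < 1 - β := by linarith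
  set B1 := (boxes N).filter (MeetsAnn ξ1 a1) with hB1
  set B2 := (boxes N).filter (MeetsAnn ξ2 a2) with hB2
  have hcross : ∀ ω ∈ DD V, ∀ L ∈ Loops ω, ∀ (ξ : ℂ) (a : ℝ), 0 < a →
      (∃ w ∈ tr ω L, ‖w - ξ‖ ≤ a) → (∃ w ∈ tr ω L, 2 * a ≤ ‖w - ξ‖) →
      ∃ S ⊆ (boxes N).filter (MeetsAnn ξ a), (∀ K ∈ S, (tr ω L ∩ dbox K).Nonempty) ∧
        a / 14 ≤ ∑ K ∈ S, (1 / 2 : ℝ) ^ K.1 := by
    intro ω hω L hL ξ a ha hin hout
    set p : ℕ × ℕ → Prop := fun K => (tr ω L ∩ dbox K).Nonempty ∧ MeetsAnn ξ a K with hp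
    refine ⟨(boxes N).filter p, ?_, ?_, ?_⟩
    · intro K hK
      rw [Finset.mem_filter] at hK ⊢
      exact ⟨hK.1, hK.2.2⟩
    · intro K hK
      exact (Finset.mem_filter.1 hK).2.1
    · have := cover_sum (boxes N) dbox (fun K => 7 * (1 / 2 : ℝ) ^ K.1) (fun _ _ => by positivity)
        (fun K _ w hw w' hw' => dbox_diam hw hw') (hT.conn ω hω L hL)
        (fun w hw => exists_dbox_le (hT.deep ω hω L hL w hw)) hin hout p
        (fun K _ w hw hwK h3 h4 => ⟨⟨w, hw, hwK⟩, w, hwK, h3, h4⟩)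
      rw [← Finset.mul_sum] at this
      linarith
  have hw := weighted_union (V := V) B1 B2 (fun ω L K => (tr ω L ∩ dbox K).Nonempty)
    (fun K => (1 / 2 : ℝ) ^ K.1) (fun _ => by positivity) (α1 := a1 / 14) (α2 := a2 / 14)
    (by positivity) (by positivity) Q (by
      intro ω hω hEω
      obtain ⟨L, hL, i1, o1, i2, o2⟩ := hE ω hω hEω
      obtain ⟨S1, s1, v1, t1⟩ := hcross ω hω L hL ξ1 a1 h1 i1 o1
      obtain ⟨S2, s2, v2, t2⟩ := hcross ω hω L hL ξ2 a2 h2 i2 o2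
      exact ⟨L, hL, S1, s1, S2, s2, v1, v2, t1, t2⟩)
  refine hw.trans ?_
  have hlc : 0 < (l ^ 2) ^ c := by positivity
  have hsum : ∑ i ∈ B1, ∑ j ∈ B2, (1 / 2 : ℝ) ^ i.1 * (1 / 2 : ℝ) ^ j.1 *
      Pr V (fun ω => ∃ L ∈ Loops ω, (tr ω L ∩ dbox i).Nonempty ∧ (tr ω L ∩ dbox j).Nonempty) ≤
      CP / (l ^ 2) ^ c * ((∑ i ∈ B1, (1 / 2 : ℝ) ^ i.1 * β ^ i.1) *
        ∑ j ∈ B2, (1 / 2 : ℝ) ^ j.1 * β ^ j.1) := by
    rw [Finset.sum_mul_sum, Finset.mul_sum]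
    apply Finset.sum_le_sum
    intro i hi
    rw [Finset.mul_sum]
    apply Finset.sum_le_sum
    intro j hj
    have h3 := hpair i (Finset.mem_filter.1 hi).1 j (Finset.mem_filter.1 hj).1
      (Finset.mem_filter.1 hi).2 (Finset.mem_filter.1 hj).2
    unfold pv at h3
    calc (1 / 2 : ℝ) ^ i.1 * (1 / 2 : ℝ) ^ j.1 *
          Pr V (fun ω => ∃ L ∈ Loops ω, (tr ω L ∩ dbox i).Nonempty ∧ (tr ω L ∩ dbox j).Nonempty)
        ≤ (1 / 2 : ℝ) ^ i.1 * (1 / 2 : ℝ) ^ j.1 *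
          (CP * (β ^ i.1 * β ^ j.1 / (l ^ 2) ^ c)) :=
          mul_le_mul_of_nonneg_left h3 (by positivity)
      _ = _ := by ring
  have hn1 := near_sum hc N hξ1 (ρ := 2 * a1) (by positivity) B1 (fun K hK => by
    obtain ⟨w, hw, -, hw2⟩ := (Finset.mem_filter.1 hK).2
    exact ⟨(Finset.mem_filter.1 hK).1, w, hw, hw2⟩)
  have hn2 := near_sum hc N hξ2 (ρ := 2 * a2) (by positivity) B2 (fun K hK => by
    obtain ⟨w, hw, -, hw2⟩ := (Finset.mem_filter.1 hK).2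
    exact ⟨(Finset.mem_filter.1 hK).1, w, hw, hw2⟩)
  rw [← hβ] at hn1 hn2
  have hs1 : 0 ≤ ∑ i ∈ B1, (1 / 2 : ℝ) ^ i.1 * β ^ i.1 :=
    Finset.sum_nonneg (fun _ _ => by positivity)
  have hs2 : 0 ≤ ∑ i ∈ B2, (1 / 2 : ℝ) ^ i.1 * β ^ i.1 :=
    Finset.sum_nonneg (fun _ _ => by positivity)
  calc (a1 / 14 * (a2 / 14))⁻¹ * ∑ i ∈ B1, ∑ j ∈ B2, (1 / 2 : ℝ) ^ i.1 * (1 / 2 : ℝ) ^ j.1 *
        Pr V (fun ω => ∃ L ∈ Loops ω, (tr ω L ∩ dbox i).Nonempty ∧ (tr ω L ∩ dbox j).Nonempty)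
      ≤ (a1 / 14 * (a2 / 14))⁻¹ * (CP / (l ^ 2) ^ c *
        ((13 * (2 * a1) * ((2 * (2 * a1)) ^ c / (1 - β))) *
        (13 * (2 * a2) * ((2 * (2 * a2)) ^ c / (1 - β))))) := by
        apply mul_le_mul_of_nonneg_left _ (by positivity)
        refine hsum.trans ?_
        apply mul_le_mul_of_nonneg_left _ (by positivity)
        exact mul_le_mul hn1 hn2 hs2 (hs1.trans hn1)
    _ = CP * cArm c * ((2 * (2 * a1)) ^ c * (2 * (2 * a2)) ^ c / (l ^ 2) ^ c) := by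
        unfold cArm
        rw [← hβ]
        field_simp
        ring
    _ = CP * cArm c * (16 * a1 * a2 / l ^ 2) ^ c := by
        rw [← Real.mul_rpow (by positivity) (by positivity),
          ← Real.div_rpow (by positivity) (by positivity)]
        congr 2
        ring

/-! ## Vertical chains -/

/-- the foot of a box on the unit circle -/
noncomputable def xi (K : ℕ × ℕ) : ℂ := ee ((K.2 : ℝ) * (1 / 2) ^ K.1)

theorem norm_xi (K : ℕ × ℕ) : ‖xi K‖ = 1 := norm_ee _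

theorem half_pow_sub {n k : ℕ} (h : k ≤ n) : (1 / 2 : ℝ) ^ (n - k) = 2 ^ k * (1 / 2) ^ n := by
  obtain ⟨m, rfl⟩ := Nat.exists_eq_add_of_le h
  rw [Nat.add_sub_cancel_left, pow_add]
  have : (2 : ℝ) ^ k * (1 / 2) ^ k = 1 := by rw [← mul_pow]; norm_num
  linear_combination -(1 / 2 : ℝ) ^ m * this

theorem anc_angle {K : ℕ × ℕ} {k : ℕ} (hk : k ≤ K.1) :
    0 ≤ (K.2 : ℝ) * (1 / 2) ^ K.1 - ((anc K k).2 : ℝ) * (1 / 2) ^ (anc K k).1 ∧
    (K.2 : ℝ) * (1 / 2) ^ K.1 - ((anc K k).2 : ℝ) * (1 / 2) ^ (anc K k).1 ≤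
      (1 / 2) ^ (K.1 - k) - (1 / 2) ^ K.1 := by
  have h1 : K.2 = 2 ^ k * (K.2 / 2 ^ k) + K.2 % 2 ^ k := (Nat.div_add_mod _ _).symm
  have h2 : K.2 % 2 ^ k + 1 ≤ 2 ^ k := Nat.mod_lt _ (by positivity)
  have h1' : (K.2 : ℝ) = 2 ^ k * ((K.2 / 2 ^ k : ℕ) : ℝ) + ((K.2 % 2 ^ k : ℕ) : ℝ) := by
    exact_mod_cast h1
  have h2' : ((K.2 % 2 ^ k : ℕ) : ℝ) + 1 ≤ 2 ^ k := by exact_mod_cast h2
  have h3 : (0 : ℝ) ≤ ((K.2 % 2 ^ k : ℕ) : ℝ) := by positivity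
  have hp : (0 : ℝ) < (1 / 2) ^ K.1 := by positivity
  show 0 ≤ (K.2 : ℝ) * (1 / 2) ^ K.1 - ((K.2 / 2 ^ k : ℕ) : ℝ) * (1 / 2) ^ (K.1 - k) ∧
    (K.2 : ℝ) * (1 / 2) ^ K.1 - ((K.2 / 2 ^ k : ℕ) : ℝ) * (1 / 2) ^ (K.1 - k) ≤ _
  rw [half_pow_sub hk]
  have e : (K.2 : ℝ) * (1 / 2) ^ K.1 - ((K.2 / 2 ^ k : ℕ) : ℝ) * (2 ^ k * (1 / 2) ^ K.1) =
      ((K.2 % 2 ^ k : ℕ) : ℝ) * (1 / 2) ^ K.1 := by
    linear_combination (1 / 2 : ℝ) ^ K.1 * h1'
  rw [e]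
  constructor
  · positivity
  · nlinarith

theorem xi_anc {K : ℕ × ℕ} {k : ℕ} (hk : k ≤ K.1) :
    ‖xi K - xi (anc K k)‖ ≤ 6.3 * (1 / 2) ^ (K.1 - k) := by
  unfold xi
  refine (norm_ee_sub_le _ _).trans ?_
  obtain ⟨h1, h2⟩ := anc_angle hk
  rw [abs_of_nonneg h1]
  have hpi : Real.pi ≤ 3.15 := Real.pi_lt_d2.le
  have hpi0 := Real.pi_pos
  have hp : (0 : ℝ) < (1 / 2) ^ K.1 := by positivity
  have hp' : (0 : ℝ) < (1 / 2) ^ (K.1 - k) := by positivity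
  calc 2 * Real.pi * ((K.2 : ℝ) * (1 / 2) ^ K.1 - ((anc K k).2 : ℝ) * (1 / 2) ^ (anc K k).1)
      ≤ 2 * 3.15 * (1 / 2) ^ (K.1 - k) := by
        apply mul_le_mul (by linarith) (by linarith) h1 (by norm_num)
    _ = _ := by norm_num

/-- a point of a box is close to the foot of every ancestor -/
theorem near_foot {I : ℕ × ℕ} {i : ℕ} (hi : i ≤ I.1) {z : ℂ} (hz : z ∈ dbox I) :
    ‖z - xi (anc I i)‖ ≤ 8 * (1 / 2) ^ (I.1 - i) := by
  obtain ⟨θ, t, h1, h2, h3, h4, rfl⟩ := hz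
  obtain ⟨a1, a2⟩ := anc_angle hi
  have hp : (0 : ℝ) < (1 / 2) ^ I.1 := by positivity
  have hle : (1 / 2 : ℝ) ^ I.1 ≤ (1 / 2) ^ (I.1 - i) :=
    pow_le_pow_of_le_one (by norm_num) (by norm_num) (Nat.sub_le _ _)
  have hp' : (0 : ℝ) < (1 / 2) ^ (I.1 - i) := by positivity
  have ht0 : 0 ≤ t := le_trans (by positivity) h3
  set θ' := ((anc I i).2 : ℝ) * (1 / 2) ^ (anc I i).1 with hθ'
  have e : ((1 - t : ℝ) : ℂ) * ee θ - xi (anc I i) = (ee θ - ee θ') - ((t : ℝ) : ℂ) * ee θ := by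
    unfold xi
    push_cast
    ring
  rw [e]
  refine (norm_sub_le _ _).trans ?_
  have k1 : ‖((t : ℝ) : ℂ) * ee θ‖ ≤ (1 / 2) ^ (I.1 - i) := by
    rw [norm_mul, norm_ee, mul_one, Complex.norm_real, Real.norm_eq_abs, abs_of_nonneg ht0]
    linarith
  have k2 := norm_ee_sub_le θ θ'
  have hpi : Real.pi ≤ 3.15 := Real.pi_lt_d2.le
  have hpi0 := Real.pi_pos
  have k3 : |θ - θ'| ≤ (1 / 2) ^ (I.1 - i) := by
    rw [abs_le]
    constructor <;> linarith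
  have k4 : 2 * Real.pi * |θ - θ'| ≤ 2 * 3.15 * (1 / 2) ^ (I.1 - i) :=
    mul_le_mul (by linarith) k3 (abs_nonneg _) (by norm_num)
  linarith

/-- Some loop joins the neighbourhood of the box `K` to the outside of the neighbourhood of its
`k`-th ancestor. -/
def EvA (tr : Conf → Set Pt → Set ℂ) (K : ℕ × ℕ) (k : ℕ) (ω : Conf) : Prop :=
  ∃ L ∈ Loops ω, (∃ w ∈ tr ω L, ‖w - xi K‖ ≤ 16 * (1 / 2) ^ K.1) ∧
    ∃ w ∈ tr ω L, 32 * (1 / 2) ^ (K.1 - k) ≤ ‖w - xi (anc K k)‖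

/-- the events of a vertical chain -/
theorem evA_chain {tr : Conf → Set Pt → Set ℂ} {ω : Conf} {L : Set Pt} (hL : L ∈ Loops ω)
    {I : ℕ × ℕ} {m : ℕ} (hm : m ≤ I.1) {z1 z2 : ℂ} (h1 : z1 ∈ tr ω L) (h2 : z2 ∈ tr ω L)
    (hz : z1 ∈ dbox I) (hd : 40 * (1 / 2) ^ (I.1 - m) ≤ ‖z1 - z2‖) {i i' : ℕ} (hi : i ≤ i')
    (hi' : i' ≤ m) : EvA tr (anc I i) (i' - i) ω := by
  refine ⟨L, hL, ⟨z1, h1, ?_⟩, z2, h2, ?_⟩
  · have := near_foot (show i ≤ I.1 by omega) hz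
    refine this.trans ?_
    show _ ≤ 16 * (1 / 2 : ℝ) ^ (I.1 - i)
    have : (0 : ℝ) < (1 / 2) ^ (I.1 - i) := by positivity
    linarith
  · have e1 : anc (anc I i) (i' - i) = anc I i' := by
      rw [anc_anc]; congr 1; omega
    have e2 : (anc I i).1 - (i' - i) = I.1 - i' := by
      show I.1 - i - (i' - i) = I.1 - i'
      omega
    rw [e1, e2]
    have k1 := near_foot (show i' ≤ I.1 by omega) hz
    have k2 : ‖z1 - z2‖ ≤ ‖z1 - xi (anc I i')‖ + ‖z2 - xi (anc I i')‖ := by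
      have : z1 - z2 = (z1 - xi (anc I i')) - (z2 - xi (anc I i')) := by ring
      rw [this]
      exact norm_sub_le _ _
    have k3 : (1 / 2 : ℝ) ^ (I.1 - i') ≤ (1 / 2) ^ (I.1 - m) :=
      pow_le_pow_of_le_one (by norm_num) (by norm_num) (by omega)
    linarith

/-- **R4, the arm bound.** -/
theorem arm {V : Finset Pt} {tr : Conf → Set Pt → Set ℂ} {N : ℕ} (hT : TrOK V tr N)
    {c CP : ℝ} (hc : 0 < c) (hCP : 0 ≤ CP) {K : ℕ × ℕ} {k : ℕ} (hk3 : 3 ≤ k) (hk : k ≤ K.1)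
    (hpair : ∀ W ∈ boxes N, ∀ W' ∈ boxes N, MeetsAnn (xi K) (16 * (1 / 2) ^ K.1) W →
      MeetsAnn (xi (anc K k)) (16 * (1 / 2) ^ (K.1 - k)) W' → pv V tr W W' ≤
        CP * (((1 / 2 : ℝ) ^ c) ^ W.1 * ((1 / 2 : ℝ) ^ c) ^ W'.1 /
          ((5 * (1 / 2) ^ (K.1 - k)) ^ 2) ^ c)) :
    Pr V (EvA tr K k) ≤ CP * cArm c * (164 * (1 / 2) ^ k) ^ c := by
  have hp : (0 : ℝ) < (1 / 2) ^ K.1 := by positivity
  have hp' : (0 : ℝ) < (1 / 2) ^ (K.1 - k) := by positivity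
  have h8 : 8 * (1 / 2 : ℝ) ^ K.1 ≤ (1 / 2) ^ (K.1 - k) := by
    rw [half_pow_sub hk]
    have : (8 : ℝ) ≤ 2 ^ k := by
      calc (8 : ℝ) = 2 ^ 3 := by norm_num
        _ ≤ 2 ^ k := pow_le_pow_right₀ (by norm_num) hk3
    nlinarith
  have hxi := xi_anc hk
  refine (two_annuli hT hc hCP (norm_xi K) (norm_xi (anc K k)) (a1 := 16 * (1 / 2) ^ K.1)
    (a2 := 16 * (1 / 2) ^ (K.1 - k)) (l := 5 * (1 / 2) ^ (K.1 - k)) (by positivity)
    (by positivity) (by positivity) hpair _ ?_).trans ?_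
  · rintro ω - ⟨L, hL, ⟨w1, hw1, hn1⟩, w2, hw2, hn2⟩
    refine ⟨L, hL, ⟨w1, hw1, hn1⟩, ⟨w2, hw2, ?_⟩, ⟨w1, hw1, ?_⟩, w2, hw2, by linarith⟩
    · have : ‖w2 - xi (anc K k)‖ ≤ ‖w2 - xi K‖ + ‖xi K - xi (anc K k)‖ := by
        have e : w2 - xi (anc K k) = (w2 - xi K) + (xi K - xi (anc K k)) := by ring
        rw [e]; exact norm_add_le _ _
      linarith
    · have : ‖w1 - xi (anc K k)‖ ≤ ‖w1 - xi K‖ + ‖xi K - xi (anc K k)‖ := by
        have e : w1 - xi (anc K k) = (w1 - xi K) + (xi K - xi (anc K k)) := by ring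
        rw [e]; exact norm_add_le _ _
      linarith
  · apply mul_le_mul_of_nonneg_left _ (mul_nonneg hCP (cArm_nonneg c))
    apply Real.rpow_le_rpow (by positivity) _ hc.le
    rw [div_le_iff₀ (by positivity), half_pow_sub hk]
    have h2k : (2 : ℝ) ^ k * (1 / 2) ^ k = 1 := by rw [← mul_pow]; norm_num
    have e1 : 16 * (16 * (1 / 2 : ℝ) ^ K.1) * (16 * (2 ^ k * (1 / 2) ^ K.1)) =
        4096 * (((1 / 2 : ℝ) ^ K.1) ^ 2 * 2 ^ k) := by ring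
    have e2 : 164 * (1 / 2 : ℝ) ^ k * (5 * (2 ^ k * (1 / 2) ^ K.1)) ^ 2 =
        4100 * (((1 / 2 : ℝ) ^ K.1) ^ 2 * 2 ^ k) * (2 ^ k * (1 / 2) ^ k) := by ring
    rw [e1, e2, h2k, mul_one]
    apply mul_le_mul_of_nonneg_right (by norm_num) (by positivity)

/-- the separation of the two annuli of `arm` -/
theorem arm_sep {K : ℕ × ℕ} {k : ℕ} (hk3 : 3 ≤ k) (hk : k ≤ K.1) {w w' : ℂ}
    (hw : ‖w - xi K‖ ≤ 2 * (16 * (1 / 2) ^ K.1))
    (hw' : 16 * (1 / 2) ^ (K.1 - k) ≤ ‖w' - xi (anc K k)‖) :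
    5 * (1 / 2) ^ (K.1 - k) ≤ ‖w - w'‖ := by
  have hp : (0 : ℝ) < (1 / 2) ^ K.1 := by positivity
  have h8 : 8 * (1 / 2 : ℝ) ^ K.1 ≤ (1 / 2) ^ (K.1 - k) := by
    rw [half_pow_sub hk]
    have : (8 : ℝ) ≤ 2 ^ k := by
      calc (8 : ℝ) = 2 ^ 3 := by norm_num
        _ ≤ 2 ^ k := pow_le_pow_right₀ (by norm_num) hk3
    nlinarith
  have hxi := xi_anc hk
  have hp' : (0 : ℝ) < (1 / 2) ^ (K.1 - k) := by positivity
  have : ‖w' - xi (anc K k)‖ ≤ ‖w - w'‖ + ‖w - xi K‖ + ‖xi K - xi (anc K k)‖ := by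
    have e : w' - xi (anc K k) = -(w - w') + (w - xi K) + (xi K - xi (anc K k)) := by ring
    rw [e]
    refine (norm_add_le _ _).trans ?_
    have := norm_add_le (-(w - w')) (w - xi K)
    rw [norm_neg] at this
    linarith
  linarith

end Vale.Agent.P155.T733
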