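import Mathlib

/-!
# P155, BD block R4: dyadic boxes of the unit disc, covering and counting lemmas
-/

namespace Vale.Agent.P155.T733

open Finset MeasureTheory

/-- `e^{2πiθ}` -/
noncomputable def ee (θ : ℝ) : ℂ := Complex.exp (Complex.I * (2 * Real.pi * θ : ℝ))

theorem norm_ee (θ : ℝ) : ‖ee θ‖ = 1 := by
  unfold ee
  rw [mul_comm]
  exact Complex.norm_exp_ofReal_mul_I _

theorem ee_sub (α β : ℝ) : ee α - ee β = ee β * (ee (α - β) - 1) := by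
  unfold ee
  rw [mul_sub, mul_one, ← Complex.exp_add]
  congr 2
  push_cast
  ring

theorem norm_ee_sub_le (α β : ℝ) : ‖ee α - ee β‖ ≤ 2 * Real.pi * |α - β| := by
  rw [ee_sub, norm_mul, norm_ee, one_mul]
  unfold ee
  refine (Real.norm_exp_I_mul_ofReal_sub_one_le).trans (le_of_eq ?_)
  rw [Real.norm_eq_abs, abs_mul, abs_of_pos (by positivity)]

theorem le_abs_sin_pi (x : ℝ) : 2 * |x - round x| ≤ |Real.sin (Real.pi * x)| := by
  set y := x - round x with hy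
  have h1 : |y| ≤ 1 / 2 := abs_sub_round x
  have h2 : |Real.sin (Real.pi * x)| = |Real.sin (Real.pi * y)| := by
    have e : Real.pi * y = Real.pi * x - (round x : ℤ) * Real.pi := by rw [hy]; ring
    rw [e, Real.sin_sub_int_mul_pi, abs_mul, abs_zpow, abs_neg, abs_one, one_zpow, one_mul]
  rw [h2]
  have h3 : |Real.sin (Real.pi * y)| = Real.sin (Real.pi * |y|) := by
    have hpi := Real.pi_pos
    rcases abs_cases y with ⟨h, h'⟩ | ⟨h, h'⟩
    · rw [h]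
      apply abs_of_nonneg
      apply Real.sin_nonneg_of_nonneg_of_le_pi (by positivity)
      rw [h] at h1
      nlinarith
    · rw [h, mul_neg, Real.sin_neg, abs_of_nonpos]
      have : 0 ≤ Real.sin (Real.pi * (-y)) := by
        apply Real.sin_nonneg_of_nonneg_of_le_pi
        · nlinarith
        · rw [h] at h1
          nlinarith
      rw [mul_neg, Real.sin_neg] at this
      linarith
  rw [h3]
  have h4 := Real.mul_le_sin (x := Real.pi * |y|) (by positivity) (by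
    have := Real.pi_pos
    nlinarith)
  have e : 2 / Real.pi * (Real.pi * |y|) = 2 * |y| := by
    field_simp
  linarith

theorem le_norm_ee_sub (α β : ℝ) : 4 * |α - β - round (α - β)| ≤ ‖ee α - ee β‖ := by
  rw [ee_sub, norm_mul, norm_ee, one_mul]
  unfold ee
  rw [Complex.norm_exp_I_mul_ofReal_sub_one, norm_mul, Real.norm_eq_abs, Real.norm_eq_abs]
  have e : 2 * Real.pi * (α - β) / 2 = Real.pi * (α - β) := by ring
  rw [e]
  have := le_abs_sin_pi (α - β)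
  rw [abs_of_pos (show (0 : ℝ) < 2 by norm_num)]
  linarith

/-- The conformal box `(n, j)`: `(1-t) e^{2πiθ}` with `θ ∈ [j 2⁻ⁿ, (j+1) 2⁻ⁿ]`,
`t ∈ [2⁻ⁿ⁻¹, 2⁻ⁿ]`. -/
def dbox (K : ℕ × ℕ) : Set ℂ :=
  {w | ∃ θ t : ℝ, (K.2 : ℝ) * (1 / 2) ^ K.1 ≤ θ ∧ θ ≤ ((K.2 : ℝ) + 1) * (1 / 2) ^ K.1 ∧
    (1 / 2) ^ (K.1 + 1) ≤ t ∧ t ≤ (1 / 2) ^ K.1 ∧ w = (1 - t : ℝ) * ee θ}

/-- the boxes of generation at most `N` -/
def boxes (N : ℕ) : Finset (ℕ × ℕ) :=
  (range (N + 1)).sigma (fun n => range (2 ^ n)) |>.map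
    ⟨fun p => (p.1, p.2), by rintro ⟨a, b⟩ ⟨c, d⟩ h; simp_all⟩

theorem mem_boxes {N : ℕ} {K : ℕ × ℕ} : K ∈ boxes N ↔ K.1 ≤ N ∧ K.2 < 2 ^ K.1 := by
  unfold boxes
  rw [Finset.mem_map]
  constructor
  · rintro ⟨⟨a, b⟩, h, rfl⟩
    rw [Finset.mem_sigma, Finset.mem_range, Finset.mem_range] at h
    exact ⟨Nat.lt_succ_iff.1 h.1, h.2⟩
  · rintro ⟨h1, h2⟩
    refine ⟨⟨K.1, K.2⟩, ?_, rfl⟩
    rw [Finset.mem_sigma, Finset.mem_range, Finset.mem_range]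
    exact ⟨Nat.lt_succ_iff.2 h1, h2⟩

theorem sum_boxes {N : ℕ} (g : ℕ × ℕ → ℝ) :
    ∑ K ∈ boxes N, g K = ∑ n ∈ range (N + 1), ∑ j ∈ range (2 ^ n), g (n, j) := by
  unfold boxes
  rw [Finset.sum_map, Finset.sum_sigma]
  rfl

theorem norm_real_sub (s : ℝ) : ‖((1 - s : ℝ) : ℂ)‖ = |1 - s| := by
  rw [Complex.norm_real, Real.norm_eq_abs]

theorem dbox_diam {K : ℕ × ℕ} {w w' : ℂ} (hw : w ∈ dbox K) (hw' : w' ∈ dbox K) :
    ‖w - w'‖ ≤ 7 * (1 / 2) ^ K.1 := by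
  obtain ⟨θ, t, h1, h2, h3, h4, rfl⟩ := hw
  obtain ⟨θ', t', h1', h2', h3', h4', rfl⟩ := hw'
  have hp : (0 : ℝ) < (1 / 2) ^ K.1 := by positivity
  have hp1 : (1 / 2 : ℝ) ^ K.1 ≤ 1 := pow_le_one₀ (by norm_num) (by norm_num)
  have e : ((1 - t : ℝ) : ℂ) * ee θ - ((1 - t' : ℝ) : ℂ) * ee θ' =
      ((1 - t : ℝ) : ℂ) * (ee θ - ee θ') + ((t' - t : ℝ) : ℂ) * ee θ' := by
    push_cast; ring
  rw [e]
  refine (norm_add_le _ _).trans ?_
  rw [norm_mul, norm_mul, norm_ee, mul_one, Complex.norm_real, Complex.norm_real,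
    Real.norm_eq_abs, Real.norm_eq_abs]
  rw [pow_succ] at h3 h3'
  have ht0 : 0 ≤ t := le_trans (by positivity) h3
  have k1 : |1 - t| ≤ 1 := by
    rw [abs_le]; constructor <;> linarith
  have k2 : |t' - t| ≤ (1 / 2) ^ K.1 * (1 / 2) := by
    rw [abs_le]; constructor <;> linarith
  have k3 : |θ - θ'| ≤ (1 / 2) ^ K.1 := by
    rw [abs_le]; constructor <;> nlinarith
  have k4 := norm_ee_sub_le θ θ'
  have hpi : Real.pi ≤ 3.15 := Real.pi_lt_d2.le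
  have hpi0 := Real.pi_pos
  have k5 : |1 - t| * ‖ee θ - ee θ'‖ ≤ 1 * (2 * Real.pi * |θ - θ'|) :=
    mul_le_mul k1 k4 (norm_nonneg _) zero_le_one
  have k6 : 2 * Real.pi * |θ - θ'| ≤ 2 * 3.15 * (1 / 2) ^ K.1 :=
    mul_le_mul (by linarith) k3 (abs_nonneg _) (by norm_num)
  linarith

/-- the boxes cover the disc -/
theorem exists_dbox {w : ℂ} (hw : ‖w‖ < 1) :
    ∃ K : ℕ × ℕ, K.2 < 2 ^ K.1 ∧ w ∈ dbox K ∧ (1 / 2 : ℝ) ^ (K.1 + 1) ≤ 1 - ‖w‖ := by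
  set t := 1 - ‖w‖ with ht
  have ht0 : 0 < t := by linarith
  have ht1 : t ≤ 1 := by have := norm_nonneg w; linarith
  -- the generation
  have hex : ∃ n : ℕ, (1 / 2 : ℝ) ^ (n + 1) ≤ t := by
    obtain ⟨n, hn⟩ := exists_pow_lt_of_lt_one ht0 (show (1 / 2 : ℝ) < 1 by norm_num)
    refine ⟨n, le_trans ?_ hn.le⟩
    exact pow_le_pow_of_le_one (by norm_num) (by norm_num) (Nat.le_succ n)
  classical
  set n := Nat.find hex with hn
  have hn1 : (1 / 2 : ℝ) ^ (n + 1) ≤ t := Nat.find_spec hex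
  have hn2 : t ≤ (1 / 2 : ℝ) ^ n := by
    rcases Nat.eq_zero_or_pos n with h0 | h0
    · rw [h0, pow_zero]; exact ht1
    · have := Nat.find_min hex (m := n - 1) (by omega)
      push Not at this
      rw [Nat.sub_add_cancel h0] at this
      exact this.le
  -- the angle
  set θ0 := Complex.arg w / (2 * Real.pi) with hθ0
  set θ := Int.fract θ0 with hθ
  have hθ1 : 0 ≤ θ := Int.fract_nonneg _
  have hθ2 : θ < 1 := Int.fract_lt_one _
  have hwe : w = ((1 - t : ℝ) : ℂ) * ee θ := by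
    have e1 : (1 - t : ℝ) = ‖w‖ := by rw [ht]; ring
    rw [e1]
    have e2 : ee θ = Complex.exp (Complex.arg w * Complex.I) := by
      unfold ee
      have h1 : θ = θ0 - ⌊θ0⌋ := rfl
      rw [h1]
      have h2 : Complex.I * ((2 * Real.pi * (θ0 - ⌊θ0⌋) : ℝ) : ℂ) =
          Complex.arg w * Complex.I - (⌊θ0⌋ : ℤ) * (2 * Real.pi * Complex.I) := by
        rw [hθ0]
        have hpi := Complex.ofReal_ne_zero.2 Real.pi_ne_zero
        push_cast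
        field_simp
      rw [h2, Complex.exp_sub, Complex.exp_int_mul_two_pi_mul_I, div_one]
    rw [e2]
    exact (Complex.norm_mul_exp_arg_mul_I w).symm
  set j := ⌊θ * 2 ^ n⌋₊ with hj
  have hj1 : (j : ℝ) ≤ θ * 2 ^ n := Nat.floor_le (by positivity)
  have hj2 : θ * 2 ^ n < j + 1 := Nat.lt_floor_add_one _
  have h2n : (1 / 2 : ℝ) ^ n * 2 ^ n = 1 := by
    rw [← mul_pow]; norm_num
  have hp : (0 : ℝ) < (1 / 2) ^ n := by positivity
  refine ⟨(n, j), ?_, ⟨θ, t, ?_, ?_, hn1, hn2, hwe⟩, hn1⟩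
  · have : (j : ℝ) < 2 ^ n := by
      refine lt_of_le_of_lt hj1 ?_
      have : (0 : ℝ) < 2 ^ n := by positivity
      nlinarith
    exact_mod_cast this
  · calc (j : ℝ) * (1 / 2) ^ n ≤ θ * 2 ^ n * (1 / 2) ^ n := by gcongr
      _ = θ * ((1 / 2) ^ n * 2 ^ n) := by ring
      _ = θ := by rw [h2n, mul_one]
  · calc θ = θ * 2 ^ n * (1 / 2) ^ n := by
          rw [mul_assoc, mul_comm ((2 : ℝ) ^ n), h2n, mul_one]
      _ ≤ ((j : ℝ) + 1) * (1 / 2) ^ n := by gcongr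

theorem exists_dbox_le {w : ℂ} {N : ℕ} (hw : (1 / 2 : ℝ) ^ N ≤ 1 - ‖w‖) :
    ∃ K ∈ boxes N, w ∈ dbox K := by
  have h0 : (0 : ℝ) < (1 / 2) ^ N := by positivity
  obtain ⟨K, h1, h2, -⟩ := exists_dbox (w := w) (by linarith)
  refine ⟨K, mem_boxes.2 ⟨?_, h1⟩, h2⟩
  obtain ⟨θ, t, -, -, h3, h4, rfl⟩ := h2
  rw [norm_mul, norm_ee, mul_one, norm_real_sub] at hw
  by_contra hcon
  push Not at hcon
  have h5 : (1 / 2 : ℝ) ^ K.1 ≤ (1 / 2) ^ (N + 1) :=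
    pow_le_pow_of_le_one (by norm_num) (by norm_num) hcon
  rw [pow_succ] at h5
  have h6 : 1 - t ≤ |1 - t| := le_abs_self _
  linarith

/-- **Covering lemma.** A connected set `E` covered by the sets `W i` of diameter at most `δ i`
which meets the closed disc of radius `a` and the outside of the open disc of radius `b` around
`ξ` meets, between the two circles, sets `W i` of total diameter at least `(b - a) / 2`. -/
theorem cover_sum {ι : Type*} (B : Finset ι) (W : ι → Set ℂ) (δ : ι → ℝ) (hδ0 : ∀ i ∈ B, 0 ≤ δ i)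
    (hδ : ∀ i ∈ B, ∀ w ∈ W i, ∀ w' ∈ W i, ‖w - w'‖ ≤ δ i) {E : Set ℂ} (hE : IsPreconnected E)
    (hcov : ∀ w ∈ E, ∃ i ∈ B, w ∈ W i) {ξ : ℂ} {a b : ℝ} (h1 : ∃ w ∈ E, ‖w - ξ‖ ≤ a)
    (h2 : ∃ w ∈ E, b ≤ ‖w - ξ‖) (p : ι → Prop) [DecidablePred p]
    (hp : ∀ i ∈ B, ∀ w ∈ E, w ∈ W i → a ≤ ‖w - ξ‖ → ‖w - ξ‖ ≤ b → p i) :
    b - a ≤ 2 * ∑ i ∈ B with p i, δ i := by
  classical
  set q : ι → Prop := fun i => ∃ w ∈ E, w ∈ W i ∧ a ≤ ‖w - ξ‖ ∧ ‖w - ξ‖ ≤ b with hq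
  have hqp : B.filter q ⊆ B.filter p := by
    intro i hi
    rw [Finset.mem_filter] at hi ⊢
    obtain ⟨w, hw1, hw2, hw3, hw4⟩ := hi.2
    exact ⟨hi.1, hp i hi.1 w hw1 hw2 hw3 hw4⟩
  choose! c hc using fun i (hi : i ∈ B.filter q) => (Finset.mem_filter.1 hi).2
  -- the image of `E` contains `[a, b]`
  have himg : Set.Icc a b ⊆ (fun w : ℂ => ‖w - ξ‖) '' E := by
    have hpre : IsPreconnected ((fun w : ℂ => ‖w - ξ‖) '' E) :=
      hE.image _ (by fun_prop)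
    obtain ⟨w1, hw1, hw1'⟩ := h1
    obtain ⟨w2, hw2, hw2'⟩ := h2
    intro s hs
    exact hpre.ordConnected.out ⟨w1, hw1, rfl⟩ ⟨w2, hw2, rfl⟩
      ⟨hw1'.trans hs.1, hs.2.trans hw2'⟩
  have hsub : Set.Icc a b ⊆ ⋃ i ∈ B.filter q,
      Set.Icc (‖c i - ξ‖ - δ i) (‖c i - ξ‖ + δ i) := by
    intro s hs
    obtain ⟨w, hw, hws⟩ := himg hs
    obtain ⟨i, hi, hwi⟩ := hcov w hw
    have hws' : ‖w - ξ‖ = s := hws
    have hqi : i ∈ B.filter q := Finset.mem_filter.2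
      ⟨hi, w, hw, hwi, by rw [hws']; exact hs.1, by rw [hws']; exact hs.2⟩
    rw [Set.mem_iUnion₂]
    refine ⟨i, hqi, ?_⟩
    have h3 := hδ i hi w hwi (c i) (hc i hqi).2.1
    have h4 : |‖w - ξ‖ - ‖c i - ξ‖| ≤ ‖w - c i‖ := by
      have := abs_norm_sub_norm_le (w - ξ) (c i - ξ)
      rwa [sub_sub_sub_cancel_right] at this
    rw [abs_le] at h4
    rw [← hws', Set.mem_Icc]
    constructor <;> linarith [h4.1, h4.2]
  have hvol := (measure_mono (μ := volume) hsub).trans (measure_biUnion_finset_le _ _)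
  rw [Real.volume_Icc] at hvol
  have hq0 : ∀ i ∈ B.filter q, 0 ≤ 2 * δ i := fun i hi => by
    have := hδ0 i (Finset.mem_filter.1 hi).1
    positivity
  have hvol2 : ENNReal.ofReal (b - a) ≤ ENNReal.ofReal (∑ i ∈ B.filter q, 2 * δ i) := by
    rw [ENNReal.ofReal_sum_of_nonneg hq0]
    refine hvol.trans (Finset.sum_le_sum (fun i hi => ?_))
    rw [Real.volume_Icc]
    apply ENNReal.ofReal_le_ofReal
    linarith
  have h5 : b - a ≤ ∑ i ∈ B.filter q, 2 * δ i :=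
    (ENNReal.ofReal_le_ofReal_iff (Finset.sum_nonneg hq0)).1 hvol2
  rw [← Finset.mul_sum] at h5
  have h6 : ∑ i ∈ B.filter q, δ i ≤ ∑ i ∈ B.filter p, δ i :=
    Finset.sum_le_sum_of_subset_of_nonneg hqp
      (fun i hi _ => hδ0 i (Finset.mem_filter.1 hi).1)
  linarith

/-- **Counting lemma.** The number of boxes of generation `m` which meet the closed disc of radius
`ρ` around `ξ`. -/
theorem count_boxes (m : ℕ) (ξ : ℂ) (ρ : ℝ) (hρ : 0 ≤ ρ) (S : Finset ℕ)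
    (hS : ∀ j ∈ S, j < 2 ^ m ∧ ∃ w ∈ dbox (m, j), ‖w - ξ‖ ≤ ρ) :
    (S.card : ℝ) ≤ ρ * 2 ^ m + 6 := by
  classical
  rcases S.eq_empty_or_nonempty with rfl | ⟨j0, hj0⟩
  · simp; positivity
  obtain ⟨hj0m, w0, hw0, hw0ξ⟩ := hS j0 hj0
  obtain ⟨θ0, t0, a1, a2, a3, a4, rfl⟩ := hw0
  have hp : (0 : ℝ) < (1 / 2) ^ m := by positivity
  have h2m : (1 / 2 : ℝ) ^ m * 2 ^ m = 1 := by rw [← mul_pow]; norm_num
  have h2m0 : (0 : ℝ) < 2 ^ m := by positivity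
  set r : ℕ := ⌊ρ * 2 ^ m / 2 + 5 / 2⌋₊ with hr
  have key : ∀ j ∈ S, ∃ e : ℤ, e ∈ Finset.Icc (-(r : ℤ)) r ∧ ∃ k : ℤ,
      (j : ℤ) = j0 + e + k * 2 ^ m := by
    intro j hj
    obtain ⟨hjm, w, hw, hwξ⟩ := hS j hj
    obtain ⟨θ, t, b1, b2, b3, b4, rfl⟩ := hw
    have k1 : ‖((1 - t : ℝ) : ℂ) * ee θ - ((1 - t0 : ℝ) : ℂ) * ee θ0‖ ≤ 2 * ρ := by
      have : ((1 - t : ℝ) : ℂ) * ee θ - ((1 - t0 : ℝ) : ℂ) * ee θ0 =
          (((1 - t : ℝ) : ℂ) * ee θ - ξ) - (((1 - t0 : ℝ) : ℂ) * ee θ0 - ξ) := by ring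
      rw [this]
      refine (norm_sub_le _ _).trans ?_
      linarith
    have k2 : ‖ee θ - ee θ0‖ ≤ 2 * ρ + 2 * (1 / 2) ^ m := by
      have e : ee θ - ee θ0 = (((1 - t : ℝ) : ℂ) * ee θ - ((1 - t0 : ℝ) : ℂ) * ee θ0) +
          (((t : ℝ) : ℂ) * ee θ - ((t0 : ℝ) : ℂ) * ee θ0) := by push_cast; ring
      rw [e]
      refine (norm_add_le _ _).trans ?_
      have k3 : ‖((t : ℝ) : ℂ) * ee θ - ((t0 : ℝ) : ℂ) * ee θ0‖ ≤ 2 * (1 / 2) ^ m := by
        refine (norm_sub_le _ _).trans ?_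
        rw [norm_mul, norm_mul, norm_ee, norm_ee, mul_one, mul_one, Complex.norm_real,
          Complex.norm_real, Real.norm_eq_abs, Real.norm_eq_abs, abs_of_nonneg, abs_of_nonneg]
        · simp only at b4 a4
          linarith
        · exact le_trans (by positivity) a3
        · exact le_trans (by positivity) b3
      linarith
    have k4 := (le_norm_ee_sub θ θ0).trans k2
    set n0 := round (θ - θ0) with hn0
    -- now `(j - j0) 2^-m` is within `ρ/2 + (5/2) 2^-m` of `n0`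
    have k5 : |((j : ℝ) - j0) * (1 / 2) ^ m - n0| ≤ ρ / 2 + 5 / 2 * (1 / 2) ^ m := by
      have c1 : |((j : ℝ) * (1 / 2) ^ m - θ) - ((j0 : ℝ) * (1 / 2) ^ m - θ0)| ≤ 2 * (1 / 2) ^ m := by
        simp only at b1 b2 a1 a2
        rw [abs_le]
        constructor <;> nlinarith
      have e : ((j : ℝ) - j0) * (1 / 2) ^ m - n0 =
          (((j : ℝ) * (1 / 2) ^ m - θ) - ((j0 : ℝ) * (1 / 2) ^ m - θ0)) +
          (θ - θ0 - n0) := by ring
      rw [e]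
      refine (abs_add_le _ _).trans ?_
      linarith
    refine ⟨(j : ℤ) - j0 - n0 * 2 ^ m, ?_, n0, by ring⟩
    have k6 : |(((j : ℤ) - j0 - n0 * 2 ^ m : ℤ) : ℝ)| ≤ ρ * 2 ^ m / 2 + 5 / 2 := by
      have e : (((j : ℤ) - j0 - n0 * 2 ^ m : ℤ) : ℝ) =
          (((j : ℝ) - j0) * (1 / 2) ^ m - n0) * 2 ^ m := by
        push_cast
        have : ((j : ℝ) - j0) * (1 / 2) ^ m * 2 ^ m = (j : ℝ) - j0 := by
          rw [mul_assoc, h2m, mul_one]
        linear_combination -this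
      rw [e, abs_mul, abs_of_pos h2m0]
      calc |((j : ℝ) - j0) * (1 / 2) ^ m - n0| * 2 ^ m ≤
            (ρ / 2 + 5 / 2 * (1 / 2) ^ m) * 2 ^ m := by gcongr
        _ = ρ * 2 ^ m / 2 + 5 / 2 * ((1 / 2) ^ m * 2 ^ m) := by ring
        _ = _ := by rw [h2m, mul_one]
    have k7 : ((j : ℤ) - j0 - n0 * 2 ^ m : ℤ).natAbs ≤ r := by
      rw [hr]
      apply Nat.le_floor
      rw [Nat.cast_natAbs]
      exact_mod_cast k6
    rw [Finset.mem_Icc]
    omega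
  choose! e he k hk using key
  have hinj : Set.InjOn e (S : Set ℕ) := by
    intro i hi j hj hij
    have h1 := hk i hi
    have h2 := hk j hj
    have hi' := (hS i hi).1
    have hj' := (hS j hj).1
    have h3 : ((i : ℤ) - j) = (k i - k j) * 2 ^ m := by rw [hij] at h1; linarith
    have h4 : ((2 : ℤ) ^ m) ∣ ((i : ℤ) - j) := ⟨k i - k j, by rw [h3]; ring⟩
    have h5 : |((i : ℤ) - j)| < 2 ^ m := by
      have hi2 : (i : ℤ) < 2 ^ m := by exact_mod_cast hi'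
      have hj2 : (j : ℤ) < 2 ^ m := by exact_mod_cast hj'
      rw [abs_lt]; constructor <;> omega
    have h6 := Int.eq_zero_of_abs_lt_dvd h4 h5
    omega
  have hcard : S.card ≤ (Finset.Icc (-(r : ℤ)) r).card :=
    Finset.card_le_card_of_injOn e (fun j hj => he j hj) hinj
  rw [Int.card_Icc] at hcard
  have h7 : S.card ≤ 2 * r + 1 := by omega
  have h8 : (r : ℝ) ≤ ρ * 2 ^ m / 2 + 5 / 2 := Nat.floor_le (by positivity)
  have h9 : (S.card : ℝ) ≤ 2 * r + 1 := by exact_mod_cast h7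
  linarith

end Vale.Agent.P155.T733
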