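import Vale.Agent.P155.T733.Fjord2

/-!
# P155, BD block R5: the union bound for fjords, with a lattice cut-off and prescribed starting boxes
-/

namespace Vale.Agent.P155.T733

open Finset

/-- The fjord event with a starting box in `B0`. -/
def Fj0 (B0 B : Finset (ℕ × ℕ)) (d : ℕ × ℕ → ℝ) (Ev : ℕ × ℕ → ℕ → Conf → Prop) (S r0 : ℝ)
    (ω : Conf) : Prop :=
  ∃ I ∈ B0, ∃ m : ℕ, m ≤ I.1 ∧ (∀ i ≤ m, anc I i ∈ B ∧ d (anc I i) ≤ r0) ∧
    S ≤ ∑ i ∈ range (m + 1), d (anc I i) ∧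
    ∀ i i' : ℕ, i ≤ i' → i' ≤ m → Ev (anc I i) (i' - i) ω

theorem fjord_union0 {V : Finset Pt} {B0 B : Finset (ℕ × ℕ)} {d : ℕ × ℕ → ℝ}
    {Ev : ℕ × ℕ → ℕ → Conf → Prop} {c C A S r0 r1 : ℝ} {k1 : ℕ} (hc : 0 < c) (hC : 0 ≤ C)
    (hS : 0 < S) (hsm : cst c ≤ S / (2 * r0)) (hr1 : 0 < r1) (hk1 : (k1 : ℝ) + 1 ≤ S / r1)
    (hd : ∀ K ∈ B, 0 < d K) (hA : ∑ K ∈ B, d K ^ 2 ≤ A)
    (hE : ∀ K ∈ B, ∀ k ≤ K.1, anc K k ∈ B → (r1 ≤ d K ∨ r1 ≤ d (anc K k) ∨ k1 ≤ k) →
      Pr V (Ev K k) ≤ C * Real.exp (-(c * k))) :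
    Pr V (Fj0 B0 B d Ev S r0) ≤ (∑ K ∈ B with d K ≤ r0,
      (C * (Real.exp c * Real.exp (-(c * (S / (2 * d K))))) + C * A / lam c S (d K))) +
      B0.card * (C * Real.exp (-(c * (S / r1 - 1)))) := by
  classical
  set k2 := ⌈S / r1⌉₊ - 1 with hk2
  have hceil := Nat.le_ceil (S / r1)
  have hk12 : k1 ≤ k2 := by
    have h1 : k1 + 1 ≤ ⌈S / r1⌉₊ := by
      have h2 : ((k1 + 1 : ℕ) : ℝ) ≤ (⌈S / r1⌉₊ : ℕ) := by
        push_cast
        exact hk1.trans hceil
      exact_mod_cast h2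
    omega
  have hk2S : S / r1 - 1 ≤ k2 := by
    have h1 : ⌈S / r1⌉₊ ≤ k2 + 1 := by omega
    have h2 : (⌈S / r1⌉₊ : ℝ) ≤ k2 + 1 := by exact_mod_cast h1
    linarith
  set B' := B.filter (fun K => d K ≤ r0) with hB'
  let Up : ℕ × ℕ → Conf → Prop := fun K ω =>
    (kup S (d K) ≤ K.1 ∧ anc K (kup S (d K)) ∈ B ∧ r1 ≤ d K) ∧ Ev K (kup S (d K)) ω
  let Lo : (ℕ × ℕ) × (ℕ × ℕ) → Conf → Prop := fun P ω =>
    ((P.2.1 - P.1.1 ≤ P.2.1 ∧ anc P.2 (P.2.1 - P.1.1) = P.1 ∧ r1 ≤ d P.1 ∧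
      lam c S (d P.1) * Real.exp (-(c * (P.2.1 - P.1.1 : ℕ))) ≤ d P.2 ^ 2)) ∧
      Ev P.2 (P.2.1 - P.1.1) ω
  let Lg : ℕ × ℕ → Conf → Prop := fun K ω => (k2 ≤ K.1 ∧ K ∈ B ∧ anc K k2 ∈ B) ∧ Ev K k2 ω
  have hmono : Pr V (Fj0 B0 B d Ev S r0) ≤
      Pr V (fun ω => ((∃ K ∈ B', Up K ω) ∨ ∃ P ∈ B' ×ˢ B, Lo P ω) ∨ ∃ K ∈ B0, Lg K ω) := by
    apply E.Pr_mono
    rintro ω - ⟨I, hI, m, hm, hch, hsum, hev⟩
    have hd' := dichotomy' hc (fun i => d (anc I i)) m
      (fun i hi => hd _ (hch i hi).1) hsum (fun i hi => by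
        refine hsm.trans ?_
        have h1 := (hch i hi).2
        have h2 := hd _ (hch i hi).1
        exact div_le_div_of_nonneg_left hS.le (by positivity) (by linarith)) hr1
    rcases hd' with ⟨i0, hi0, hbig, hcase⟩ | hlong
    · left
      have hK0 : anc I i0 ∈ B' := Finset.mem_filter.2 (hch i0 hi0)
      rcases hcase with h | ⟨i, hi, h⟩
      · left
        refine ⟨anc I i0, hK0, ?_⟩
        have hle : kup S (d (anc I i0)) ≤ m - i0 := by
          unfold kup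
          have : ⌈S / (2 * d (anc I i0))⌉₊ ≤ m - i0 + 1 := by
            rw [Nat.ceil_le]
            push_cast [Nat.cast_sub hi0]
            exact h
          omega
        refine ⟨⟨?_, ?_, hbig⟩, ?_⟩
        · show _ ≤ I.1 - i0
          omega
        · rw [anc_anc]
          exact (hch _ (by omega)).1
        · have := hev i0 (i0 + kup S (d (anc I i0))) (by omega) (by omega)
          rwa [Nat.add_sub_cancel_left] at this
      · right
        refine ⟨(anc I i0, anc I i), Finset.mem_product.2 ⟨hK0, (hch i (hi.trans hi0)).1⟩, ?_⟩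
        have e1 : (anc I i).1 - (anc I i0).1 = i0 - i := by
          show (I.1 - i) - (I.1 - i0) = i0 - i
          omega
        refine ⟨⟨?_, ?_, hbig, ?_⟩, ?_⟩
        · exact Nat.sub_le _ _
        · rw [e1, anc_anc]
          congr 1
          omega
        · rw [e1]
          exact h
        · rw [e1]
          exact hev i i0 hi hi0
    · right
      have hk2m : k2 ≤ m := by omega
      refine ⟨I, hI, ⟨by omega, ?_, (hch k2 hk2m).1⟩, ?_⟩
      · have := (hch 0 (Nat.zero_le _)).1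
        rwa [anc_zero] at this
      · have := hev 0 k2 (Nat.zero_le _) hk2m
        rwa [anc_zero, Nat.sub_zero] at this
  refine hmono.trans ((E.Pr_or_le V _ _).trans ?_)
  apply add_le_add
  · refine (E.Pr_or_le V _ _).trans ?_
    rw [Finset.sum_add_distrib]
    apply add_le_add
    · refine (E.Pr_exists_le V B' Up).trans (Finset.sum_le_sum (fun K hK => ?_))
      have hKB : K ∈ B := (Finset.mem_filter.1 hK).1
      by_cases hcond : kup S (d K) ≤ K.1 ∧ anc K (kup S (d K)) ∈ B ∧ r1 ≤ d K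
      · calc Pr V (Up K) ≤ Pr V (Ev K (kup S (d K))) := E.Pr_mono (fun ω _ h => h.2)
          _ ≤ C * Real.exp (-(c * kup S (d K))) := hE K hKB _ hcond.1 hcond.2.1
              (Or.inl hcond.2.2)
          _ ≤ _ := mul_le_mul_of_nonneg_left (exp_kup hc) hC
      · calc Pr V (Up K) ≤ Pr V (fun _ => False) := E.Pr_mono (fun ω _ h => hcond h.1)
          _ = 0 := Pr_false V
          _ ≤ _ := by positivity
    · refine (E.Pr_exists_le V (B' ×ˢ B) Lo).trans ?_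
      rw [Finset.sum_product]
      apply Finset.sum_le_sum
      intro K0 hK0
      have hd0 : 0 < d K0 := hd K0 (Finset.mem_filter.1 hK0).1
      have hl : 0 < lam c S (d K0) := lam_pos hd0
      calc ∑ K ∈ B, Pr V (Lo (K0, K)) ≤ ∑ K ∈ B, C / lam c S (d K0) * d K ^ 2 := by
            apply Finset.sum_le_sum
            intro K hK
            by_cases hcond : K.1 - K0.1 ≤ K.1 ∧ anc K (K.1 - K0.1) = K0 ∧ r1 ≤ d K0 ∧
                lam c S (d K0) * Real.exp (-(c * (K.1 - K0.1 : ℕ))) ≤ d K ^ 2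
            · calc Pr V (Lo (K0, K)) ≤ Pr V (Ev K (K.1 - K0.1)) :=
                    E.Pr_mono (fun ω _ h => h.2)
                _ ≤ C * Real.exp (-(c * (K.1 - K0.1 : ℕ))) := hE K hK _ hcond.1 (by
                    rw [hcond.2.1]; exact (Finset.mem_filter.1 hK0).1) (by
                    rw [hcond.2.1]; exact Or.inr (Or.inl hcond.2.2.1))
                _ ≤ C * (d K ^ 2 / lam c S (d K0)) := by
                    apply mul_le_mul_of_nonneg_left _ hC
                    rw [le_div_iff₀ hl]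
                    linarith [hcond.2.2.2]
                _ = _ := by ring
            · calc Pr V (Lo (K0, K)) ≤ Pr V (fun _ => False) :=
                    E.Pr_mono (fun ω _ h => hcond h.1)
                _ = 0 := Pr_false V
                _ ≤ _ := by positivity
        _ = C / lam c S (d K0) * ∑ K ∈ B, d K ^ 2 := by rw [Finset.mul_sum]
        _ ≤ C / lam c S (d K0) * A := mul_le_mul_of_nonneg_left hA (by positivity)
        _ = _ := by ring
  · apply E.Pr_exists_le_card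
    intro K hK
    by_cases hcond : k2 ≤ K.1 ∧ K ∈ B ∧ anc K k2 ∈ B
    · calc Pr V (Lg K) ≤ Pr V (Ev K k2) := E.Pr_mono (fun ω _ h => h.2)
        _ ≤ C * Real.exp (-(c * k2)) := hE K hcond.2.1 _ hcond.1 hcond.2.2
              (Or.inr (Or.inr hk12))
        _ ≤ _ := by
            apply mul_le_mul_of_nonneg_left _ hC
            apply Real.exp_le_exp.2
            nlinarith
    · calc Pr V (Lg K) ≤ Pr V (fun _ => False) := E.Pr_mono (fun ω _ h => hcond h.1)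
        _ = 0 := Pr_false V
        _ ≤ _ := by positivity

/-- **R5, union bound for the fjords** with starting boxes in `B0`. -/
theorem fjord0 {c C A S ε : ℝ} (hc : 0 < c) (hC : 0 ≤ C) (hA0 : 0 ≤ A) (hS : 0 < S) (hε : 0 < ε) :
    ∃ r0 : ℝ, 0 < r0 ∧ r0 < S ∧ ∀ (V : Finset Pt) (B0 B : Finset (ℕ × ℕ)) (d : ℕ × ℕ → ℝ)
      (Ev : ℕ × ℕ → ℕ → Conf → Prop) (r1 : ℝ) (k1 : ℕ), 0 < r1 → (k1 : ℝ) + 1 ≤ S / r1 →
      (∀ K ∈ B, 0 < d K) → ∑ K ∈ B, d K ^ 2 ≤ A →
      (∀ K ∈ B, ∀ k ≤ K.1, anc K k ∈ B → (r1 ≤ d K ∨ r1 ≤ d (anc K k) ∨ k1 ≤ k) →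
        Pr V (Ev K k) ≤ C * Real.exp (-(c * k))) →
      Pr V (Fj0 B0 B d Ev S r0) ≤ ε + B0.card * (C * Real.exp (-(c * (S / r1 - 1)))) := by
  obtain ⟨r0, hr0, hsm, hnum⟩ := fjord_num (c := c) (C := C) (A := A) (S := S) (ε := ε)
    hc hC hA0 hS hε
  refine ⟨r0, hr0, ?_, ?_⟩
  · have h1 : 2 ≤ cst c := by
      unfold cst
      have : Real.exp (-(c / 2)) < 1 := exp_lt1 (by linarith)
      have : 0 ≤ 1 / (1 - Real.exp (-(c / 2))) := by
        apply one_div_nonneg.2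
        linarith
      linarith
    have h2 := h1.trans hsm
    rw [le_div_iff₀ (by positivity)] at h2
    linarith
  intro V B0 B d Ev r1 k1 hr1 hk1 hd hA hE
  have h1 := fjord_union0 (B0 := B0) hc hC hS hsm hr1 hk1 hd hA hE
  have h2 := hnum B d hd hA
  linarith

end Vale.Agent.P155.T733
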