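import Vale.Agent.P155.BD.Props2
import Vale.Agent.P155.T733.Fjord3

/-!
# P155, block BD, B8: the boundary estimate `Q1.BD` from its pieces
-/

namespace Vale.Agent.P155.BD

open Complex Metric Set Filter Skel T733 Topology

/-- [HGTp] `HGT` with some exponent `p`. -/
def HGTp : Prop := ∃ p : ℕ, p ≠ 0 ∧ ∃ c : ℝ, 0 < c ∧ ∀ T f φ, RM T f φ → ∀ w ∈ ball (0 : ℂ) 1,
  c * (1 - ‖w‖) ^ p * dU T (f 0) ≤ dU T (f w)

/-- [L1] the polygons fit into boxes of radius `⌈M / δ⌉`. -/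
def L1 : Prop := ∀ Ω : Set ℂ, Bornology.IsBounded Ω → ∀ S : TempApprox Ω,
  ∃ M : ℝ, 0 < M ∧ ∀ᶠ n in atTop, Fits (S.T n) ⌈M / S.δ n⌉₊

/-- [L2] points of the polygon close to `∂Ω` are close to the boundary of the polygon. -/
def L2 : Prop := ∀ Ω : Set ℂ, IsOpen Ω → Bornology.IsBounded Ω → Ω.Nonempty →
  ∀ S : TempApprox Ω, ∀ η : ℝ, 0 < η →
  ∀ᶠ n in atTop, ∀ z ∈ UU (S.T n), infDist (S.a n + S.δ n * z) (frontier Ω) ≤ 2 * η →
    S.δ n * dU (S.T n) z ≤ 4 * η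

/-- [L3] the base point. -/
def L3 : Prop := ∀ Ω : Set ℂ, IsOpen Ω → ∀ S : TempApprox Ω, ∀ z₀ ∈ Ω, ∃ c : ℝ, 0 < c ∧
  ∀ᶠ n in atTop, (z₀ - S.a n) / S.δ n ∈ UU (S.T n) ∧
    c / S.δ n ≤ dU (S.T n) ((z₀ - S.a n) / S.δ n)

theorem EvC_mono {tr : Conf → Set Pt → Set ℂ} {e τ τ' : ℝ} (h : τ ≤ τ') {ω : Conf}
    (h1 : EvC tr e τ ω) : EvC tr e τ' ω := by
  obtain ⟨L, hL, G, hG, hc, hd, hz⟩ := h1
  exact ⟨L, hL, G, hG, hc, fun w hw => (hd w hw).trans h, hz⟩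

theorem norm_cen (K : ℕ × ℕ) : ‖cen K‖ = 1 - 3 / 4 * (1 / 2) ^ K.1 := by
  unfold cen
  rw [norm_mul, norm_ee, mul_one, Complex.norm_real, Real.norm_eq_abs, abs_of_nonneg]
  have : (1 / 2 : ℝ) ^ K.1 ≤ 1 := pow_le_one₀ (by norm_num) (by norm_num)
  linarith

theorem cen_mem (K : ℕ × ℕ) : cen K ∈ ball (0 : ℂ) 1 := by
  rw [mem_ball_zero_iff, norm_cen]
  have : (0 : ℝ) < (1 / 2) ^ K.1 := by positivity
  linarith

theorem isOpen_UU (T : Temp) : IsOpen (UU T) := isOpen_interior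

theorem dbox_gen {K : ℕ × ℕ} {w : ℂ} (h : w ∈ dbox K) :
    (1 / 2 : ℝ) ^ (K.1 + 1) ≤ 1 - ‖w‖ ∧ 1 - ‖w‖ ≤ (1 / 2 : ℝ) ^ K.1 := by
  obtain ⟨θ, t, -, -, h3, h4, rfl⟩ := h
  have h5 : t ≤ 1 := h4.trans (pow_le_one₀ (by norm_num) (by norm_num))
  rw [norm_mul, norm_ee, mul_one, norm_real_sub, abs_of_nonneg (by linarith)]
  constructor <;> linarith

theorem anc_mem {N : ℕ} {I : ℕ × ℕ} (hI : I ∈ boxes N) {i : ℕ} (hi : i ≤ I.1) :
    anc I i ∈ boxes N := by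
  rw [mem_boxes] at hI ⊢
  refine ⟨(Nat.sub_le _ _).trans hI.1, ?_⟩
  show I.2 / 2 ^ i < 2 ^ (I.1 - i)
  apply Nat.div_lt_of_lt_mul
  rw [← pow_add, Nat.add_sub_cancel' hi]
  exact hI.2

/-- one of the two points starts a fjord -/
theorem fj_of {T : Temp} {f φ : ℂ → ℂ} {ω : Conf} {L : Set Pt} (hL : L ∈ Loops ω)
    {N : ℕ} {B0 : Finset (ℕ × ℕ)} {δ S0 r0 : ℝ} {I : ℕ × ℕ} (hI : I ∈ boxes N) (hI0 : I ∈ B0)
    {m : ℕ} (hm : m ≤ I.1) {z1 z2 : ℂ} (h1 : z1 ∈ trc φ ω L) (h2 : z2 ∈ trc φ ω L)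
    (hz : z1 ∈ dbox I) (hd : m = 0 ∨ 40 * (1 / 2) ^ (I.1 - m) ≤ ‖z1 - z2‖)
    (hsm : ∀ i ≤ m, δ * bsz T f (anc I i) ≤ r0) (hr0 : r0 < S0)
    (hS : S0 ≤ δ * ∑ i ∈ Finset.range (m + 1), bsz T f (anc I i)) :
    Fj0 B0 (boxes N) (fun K => δ * bsz T f K) (EvA (trc φ)) S0 r0 ω := by
  have hd' : 40 * (1 / 2) ^ (I.1 - m) ≤ ‖z1 - z2‖ := by
    rcases hd with rfl | hd
    · exfalso
      have := hsm 0 le_rfl
      rw [zero_add, Finset.sum_range_one] at hS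
      linarith
    · exact hd
  refine ⟨I, hI0, m, hm, fun i hi => ⟨anc_mem hI (hi.trans hm), hsm i hi⟩, ?_, ?_⟩
  · rw [Finset.mul_sum] at hS
    exact hS
  · intro i i' hi hi'
    exact evA_chain hL hm h1 h2 hz hd' hi hi'

/-- growth: `(2 R + 1)² e^{-c R^a} → 0` -/
theorem grow_lim {a b : ℝ} (ha : 0 < a) (hb : 0 < b) (C : ℝ) :
    Tendsto (fun x : ℝ => (2 * x + 1) ^ 2 * (C * Real.exp (-(b * x ^ a)))) atTop (𝓝 0) := by
  have h1 : Tendsto (fun x : ℝ => x ^ a) atTop atTop := tendsto_rpow_atTop ha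
  have key : ∀ s : ℝ, Tendsto (fun x : ℝ => (x ^ a) ^ s * Real.exp (-b * x ^ a)) atTop (𝓝 0) :=
    fun s => (tendsto_rpow_mul_exp_neg_mul_atTop_nhds_zero s b hb).comp h1
  have h2 := (key (2 / a)).const_mul (9 * |C|)
  rw [mul_zero] at h2
  rw [tendsto_zero_iff_abs_tendsto_zero]
  refine squeeze_zero' (Eventually.of_forall fun x => abs_nonneg _) ?_ h2
  filter_upwards [eventually_ge_atTop (1 : ℝ)] with x hx
  have hx0 : 0 < x := by linarith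
  have e1 : (x ^ a) ^ (2 / a) = x ^ 2 := by
    rw [← Real.rpow_mul hx0.le, mul_div_cancel₀ _ ha.ne', Real.rpow_two]
  rw [Function.comp_apply, e1, abs_mul, abs_mul, abs_of_nonneg (sq_nonneg _),
    abs_of_pos (Real.exp_pos _), neg_mul]
  have h3 : (2 * x + 1) ^ 2 ≤ 9 * x ^ 2 := by nlinarith
  calc (2 * x + 1) ^ 2 * (|C| * Real.exp (-(b * x ^ a)))
      ≤ 9 * x ^ 2 * (|C| * Real.exp (-(b * x ^ a))) := by gcongr
    _ = _ := by ring

/-- logarithms against powers -/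
theorem log_lim {a : ℝ} (ha : 0 < a) (C D : ℝ) {b : ℝ} (hb : 0 < b) :
    ∀ᶠ x : ℝ in atTop, C * Real.log x + D ≤ b * x ^ a := by
  have h1 : (fun x : ℝ => C * Real.log x) =o[atTop] fun x : ℝ => x ^ a :=
    (isLittleO_log_rpow_atTop ha).const_mul_left C
  have h2 : (fun _ : ℝ => D) =o[atTop] fun x : ℝ => x ^ a := by
    rw [Asymptotics.isLittleO_const_left]
    right
    exact tendsto_norm_atTop_atTop.comp (tendsto_rpow_atTop ha)
  have h3 := (h1.add h2).bound hb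
  filter_upwards [h3, eventually_ge_atTop (0 : ℝ)] with x hx hx0
  rw [Real.norm_eq_abs, Real.norm_eq_abs, abs_of_nonneg (Real.rpow_nonneg hx0 a)] at hx
  exact (le_abs_self _).trans hx

/-- the radii `⌈M / δ⌉` -/
theorem rad_facts {Ω : Set ℂ} (S : TempApprox Ω) {M : ℝ} (hM : 0 < M) :
    Tendsto (fun n => ((⌈M / S.δ n⌉₊ : ℕ) : ℝ)) atTop atTop ∧
    (∀ᶠ n in atTop, S.δ n * ((⌈M / S.δ n⌉₊ : ℕ) : ℝ) ≤ M + 1) := by
  constructor
  · have h1 : Tendsto (fun n => M / S.δ n) atTop atTop := by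
      have h2 : Tendsto (fun n => (S.δ n)⁻¹) atTop atTop :=
        tendsto_inv_nhdsGT_zero.comp (tendsto_nhdsWithin_iff.2 ⟨S.mesh,
          Eventually.of_forall (fun n => S.pos n)⟩)
      exact h2.const_mul_atTop hM
    exact tendsto_atTop_mono (fun n => Nat.le_ceil _) h1
  · filter_upwards [(tendsto_order.1 S.mesh).2 1 one_pos] with n hn
    have hd := S.pos n
    have h1 := (Nat.ceil_lt_add_one (a := M / S.δ n) (by positivity)).le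
    calc S.δ n * ((⌈M / S.δ n⌉₊ : ℕ) : ℝ) ≤ S.δ n * (M / S.δ n + 1) := by gcongr
      _ = M + S.δ n := by field_simp
      _ ≤ M + 1 := by linarith

/-- the deterministic inclusion -/
theorem incl {Ω : Set ℂ} {T : Temp} {f φ : ℂ → ℂ} (hrm : RM T f φ) {δ : ℝ} (hδp : 0 < δ) {a : ℂ}
    {N : ℕ} (hTr : TrOK T.V (trc φ) N) {ω : Conf} (hω : ω ∈ DD T.V) {R : ℕ} (hfit : Fits T R)
    {Bx : Pt → ℕ × ℕ}
    (hBx : ∀ x, cf x ∈ UU T → (Bx x).2 < 2 ^ (Bx x).1 ∧ φ (cf x) ∈ dbox (Bx x))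
    (hSTR : STRC) {Cc : ℝ} (hCc : 0 < Cc)
    (hch : ∀ I I' : ℕ × ℕ, I.2 < 2 ^ I.1 →
      I'.2 < 2 ^ I'.1 → ∀ z₁ ∈ dbox I, ∀ z₂ ∈ dbox I', ∃ m ≤ I.1, ∃ m' ≤ I'.1,
      (m = 0 ∨ 40 * (1 / 2) ^ (I.1 - m) ≤ ‖z₁ - z₂‖) ∧
      (m' = 0 ∨ 40 * (1 / 2) ^ (I'.1 - m') ≤ ‖z₁ - z₂‖) ∧
      ‖f z₁ - f z₂‖ ≤ Cc * (∑ i ∈ Finset.range (m + 1), bsz T f (anc I i) +
        ∑ i ∈ Finset.range (m' + 1), bsz T f (anc I' i)))
    {ρ η τ τ' ε' r0 S0 : ℝ} (hρ : 0 < ρ) (hτε : τ' ≤ ε' / 2) (hττ : τ' ≤ τ)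
    (hS0 : S0 = ρ / (4 * Cc)) (hr0S : r0 < S0) (hm1 : δ < ρ / 4) (hm2 : δ < η / 2)
    (hsmall : ∀ K : ℕ × ℕ, 3 / 4 * (1 / 2 : ℝ) ^ K.1 < ε' → δ * bsz T f K ≤ r0)
    (hcoll : ∀ z ∈ UU T, infDist (a + δ * z) (frontier Ω) ≤ 2 * η → 1 - ‖φ z‖ ≤ τ')
    {v : Pt} {m : ℕ} (hv : ω.1 v ≠ ω.2 v)
    (hnear : ∀ j ≤ m, infDist (Q1.pt δ a ((SW.suc ω)^[j] v)) (frontier Ω) ≤ η)
    {i j : ℕ} (hi : i ≤ m) (hj : j ≤ m)
    (hdist : ρ ≤ dist (Q1.pt δ a ((SW.suc ω)^[i] v)) (Q1.pt δ a ((SW.suc ω)^[j] v))) :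
    EvC (trc φ) ε' τ ω ∨
      Fj0 ((box (0, 0) R).image Bx) (boxes N) (fun K => δ * bsz T f K) (EvA (trc φ)) S0 r0 ω := by
  classical
  by_cases hEv : EvC (trc φ) ε' τ ω
  · exact Or.inl hEv
  right
  obtain ⟨hL, G, hG, hGc, hG1, hG2⟩ := hSTR T f φ hrm ω hω v hv m
  -- scaling
  have hscale : ∀ z w : ℂ, dist (a + δ * z) (a + δ * w) = δ * dist z w := by
    intro z w
    rw [dist_eq_norm, dist_eq_norm]
    have : a + δ * z - (a + δ * w) = (δ : ℂ) * (z - w) := by ring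
    rw [this, norm_mul, Complex.norm_real, Real.norm_eq_abs, abs_of_pos hδp]
  have hpt : ∀ u : Pt, Q1.pt δ a u = a + δ * Q1.pt 1 0 u := by
    intro u
    unfold Q1.pt
    push_cast
    ring
  -- the points of `G` are in the collar
  have hGτ : ∀ w ∈ G, 1 - ‖w‖ ≤ τ' := by
    intro w hw
    obtain ⟨z, hz, rfl, l, hl, hd⟩ := hG1 w hw
    apply hcoll z hz
    have h2 := hnear l hl
    have h3 := infDist_le_infDist_add_dist (s := frontier Ω) (x := a + δ * z)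
      (y := Q1.pt δ a ((SW.suc ω)^[l] v))
    rw [hpt, hscale] at h3
    rw [hpt] at h2
    have h4 : δ * dist z (Q1.pt 1 0 ((SW.suc ω)^[l] v)) ≤ δ * 2 := by gcongr
    linarith
  obtain ⟨x1, hx1f, hx1, hx1G, hx1d⟩ := hG2 i hi
  obtain ⟨x2, hx2f, hx2, hx2G, hx2d⟩ := hG2 j hj
  have hdz : ‖φ (cf x1) - φ (cf x2)‖ < ε' := by
    by_contra hcon
    push Not at hcon
    exact hEv ⟨_, hL, G, hG, hGc, fun w hw => (hGτ w hw).trans hττ, _, hx1G, _,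
      hx2G, hcon⟩
  obtain ⟨hI1, hI2⟩ := hBx x1 hx1
  obtain ⟨hJ1, hJ2⟩ := hBx x2 hx2
  obtain ⟨m1, hm1', m2, hm2', hd1, hd2, hsum⟩ := hch (Bx x1) (Bx x2) hI1 hJ1 _ hI2 _ hJ2
  rw [hrm.right _ hx1, hrm.right _ hx2] at hsum
  -- the distance of the two faces
  have hfar : ρ / (2 * δ) ≤ ‖cf x1 - cf x2‖ := by
    rw [hpt, hpt, hscale] at hdist
    have h1 : ρ / δ ≤ dist (Q1.pt 1 0 ((SW.suc ω)^[i] v)) (Q1.pt 1 0 ((SW.suc ω)^[j] v)) := by
      rw [div_le_iff₀ hδp]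
      linarith
    have h2 := dist_triangle4 (Q1.pt 1 0 ((SW.suc ω)^[i] v)) (cf x1) (cf x2)
      (Q1.pt 1 0 ((SW.suc ω)^[j] v))
    rw [dist_comm _ (cf x1)] at h2
    have h3 : (4 : ℝ) ≤ ρ / δ := by
      rw [le_div_iff₀ hδp]
      linarith
    have h4 : ρ / (2 * δ) = ρ / δ / 2 := by field_simp
    rw [← dist_eq_norm, h4]
    linarith
  have hin : ∀ x, cf x ∈ UU T → φ (cf x) ∈ G → Bx x ∈ boxes N := by
    intro x hx hxG
    obtain ⟨hK1, hK2⟩ := hBx x hx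
    rw [mem_boxes]
    refine ⟨?_, hK1⟩
    have h1 := hTr.deep ω hω _ hL _ (hG hxG)
    have h2 := (dbox_gen hK2).2
    by_contra hcon
    push Not at hcon
    have h3 : (1 / 2 : ℝ) ^ (Bx x).1 < (1 / 2) ^ N :=
      pow_lt_pow_right_of_lt_one₀ (by norm_num) (by norm_num) hcon
    linarith
  have hface : ∀ x ∈ T.faceSet, Bx x ∈ (box (0, 0) R).image Bx := fun x hx =>
    Finset.mem_image.2 ⟨x, by exact_mod_cast hfit hx, rfl⟩
  -- the sizes on the chain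
  have hchain : ∀ x m1, cf x ∈ UU T → φ (cf x) ∈ G → m1 ≤ (Bx x).1 →
      (m1 = 0 ∨ 40 * (1 / 2) ^ ((Bx x).1 - m1) ≤ ‖φ (cf x1) - φ (cf x2)‖) →
      ∀ i ≤ m1, δ * bsz T f (anc (Bx x) i) ≤ r0 := by
    intro x m1 hx hxG hm1 hd i hi
    apply hsmall
    show 3 / 4 * (1 / 2 : ℝ) ^ ((Bx x).1 - i) < ε'
    rcases hd with rfl | hd
    · have : i = 0 := by omega
      subst this
      obtain ⟨hK1, hK2⟩ := hBx x hx
      have h1 := (dbox_gen hK2).1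
      have h2 := hGτ _ hxG
      have h4 : (0 : ℝ) < (1 / 2) ^ (Bx x).1 := by positivity
      rw [pow_succ] at h1
      rw [Nat.sub_zero]
      linarith
    · have h1 : (1 / 2 : ℝ) ^ ((Bx x).1 - i) ≤ (1 / 2) ^ ((Bx x).1 - m1) :=
        pow_le_pow_of_le_one (by norm_num) (by norm_num) (by omega)
      have h2 : (0 : ℝ) < (1 / 2) ^ ((Bx x).1 - m1) := by positivity
      linarith
  -- one of the two sums is large
  have hbig : 2 * S0 ≤ δ * ∑ i ∈ Finset.range (m1 + 1), bsz T f (anc (Bx x1) i) +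
      δ * ∑ i ∈ Finset.range (m2 + 1), bsz T f (anc (Bx x2) i) := by
    have h1 := hfar.trans hsum
    have h2 : 2 * S0 = δ / Cc * (ρ / (2 * δ)) := by
      rw [hS0]
      field_simp
      norm_num
    rw [h2]
    calc δ / Cc * (ρ / (2 * δ)) ≤ δ / Cc * (Cc * (∑ i ∈ Finset.range (m1 + 1),
          bsz T f (anc (Bx x1) i) + ∑ i ∈ Finset.range (m2 + 1), bsz T f (anc (Bx x2) i))) := by
          gcongr
      _ = _ := by field_simp
  by_cases hcase : S0 ≤ δ * ∑ i ∈ Finset.range (m1 + 1), bsz T f (anc (Bx x1) i)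
  · exact fj_of hL (hin x1 hx1 hx1G) (hface x1 hx1f) hm1' (hG hx1G) (hG hx2G) hI2 hd1
      (hchain x1 m1 hx1 hx1G hm1' hd1) hr0S hcase
  · refine fj_of hL (hin x2 hx2 hx2G) (hface x2 hx2f) hm2' (hG hx2G) (hG hx1G) hJ2 ?_
      (hchain x2 m2 hx2 hx2G hm2' hd2) hr0S (by linarith)
    rw [norm_sub_rev]
    exact hd2

/-- **The boundary estimate from its pieces.** -/
theorem bd_of (hRM : RMEX) (hHGT : HGTp) (hST : STAT) (hARM : ARMB) (hCOL : COLB) (hCH : CHAIN)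
    (hAR : AREA) (hTRC : TRC) (hSTR : STRC) (hL1 : L1) (hL2 : L2) (hL3 : L3) : Q1.BD := by
  classical
  intro Ω ho hb hne hsc S ρ hρ ε hε
  obtain ⟨z₀, hz₀⟩ := id hne
  obtain ⟨M, hM, hfit⟩ := hL1 Ω hb S
  obtain ⟨c3, hc3, hbase⟩ := hL3 Ω ho S z₀ hz₀
  obtain ⟨p, hp0, cH, hcH, hH⟩ := hHGT
  obtain ⟨a₀, c, C, C₁, ha0, ha1, hc, hC, hC₁, R₀, harm⟩ := hARM
  obtain ⟨a₀', ha0', ha1', hcol⟩ := hCOL
  obtain ⟨Cc, hCc, hch⟩ := hCH
  obtain ⟨Ca, hCa, har⟩ := hAR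
  obtain ⟨hRtop, hRle⟩ := rad_facts S hM
  obtain ⟨S0, hS0⟩ : ∃ S0, S0 = ρ / (4 * Cc) := ⟨_, rfl⟩
  have hS0p : 0 < S0 := by rw [hS0]; positivity
  obtain ⟨r0, hr0, hr0S, hfj⟩ := fjord0 (c := c) (C := C) (A := Ca * (M + 1) ^ 2) (S := S0)
    (ε := ε / 4) hc hC (by positivity) hS0p (by positivity)
  obtain ⟨ε', hε', hstat⟩ := hST Ω ho hb hsc S z₀ hz₀ r0 hr0
  obtain ⟨τ, hτ, R₁, hcol⟩ := hcol ε' (ε / 4) hε' (by positivity)
  obtain ⟨τ', hτ'p, hτε, hττ⟩ : ∃ τ', 0 < τ' ∧ τ' ≤ ε' / 2 ∧ τ' ≤ τ :=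
    ⟨min τ (ε' / 2), by positivity, min_le_right _ _, min_le_left _ _⟩
  obtain ⟨η, hη⟩ : ∃ η, η = cH * τ' ^ p * c3 / 8 := ⟨_, rfl⟩
  have hηp : 0 < η := by rw [hη]; positivity
  refine ⟨η, hηp, ?_⟩
  obtain ⟨b, hb'⟩ : ∃ b, b = S0 / (M + 1) := ⟨_, rfl⟩
  have hbp : 0 < b := by rw [hb']; positivity
  have hlog := hRtop.eventually (log_lim ha0 C₁ 2 hbp)
  have hgrow := (tendsto_order.1 ((grow_lim ha0 (show 0 < c * b by positivity)
    (C * Real.exp c)).comp hRtop)).2 (ε / 4) (by positivity)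
  have hpow := hRtop.eventually ((tendsto_rpow_atTop ha0').eventually_ge_atTop ((M + 1) / c3))
  filter_upwards [hfit, hbase, hstat, hRle, hlog, hgrow, hpow,
    hRtop.eventually_ge_atTop (R₀ : ℝ), hRtop.eventually_ge_atTop (R₁ : ℝ),
    hRtop.eventually_ge_atTop 1, hL2 Ω ho hb hne S η hηp,
    (tendsto_order.1 S.mesh).2 (min (ρ / 4) (η / 2)) (by positivity)]
    with n hfit hbase hstat hRle hlog hgrow hpow hR0 hR1 hR1' hL2 hmesh
  have hδp : 0 < S.δ n := S.pos n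
  rw [Function.comp_apply] at hgrow
  generalize hδ : S.δ n = δ at *
  generalize hR : ⌈M / δ⌉₊ = R at *
  generalize hT : S.T n = T at *
  obtain ⟨hzU, hzd⟩ := hbase
  obtain ⟨f, φ, hrm, hf0⟩ := hRM T _ hzU
  obtain ⟨N, hN⟩ := hTRC T f φ hrm
  have hTr := hN N le_rfl
  have hR0' : R₀ ≤ R := by exact_mod_cast hR0
  have hR1n : R₁ ≤ R := by exact_mod_cast hR1
  have hRpos : 1 ≤ R := by exact_mod_cast hR1'
  have hRp : (0 : ℝ) < R := by linarith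
  -- the box of a face
  have hBx : ∀ x : Pt, ∃ K : ℕ × ℕ, cf x ∈ UU T → K.2 < 2 ^ K.1 ∧ φ (cf x) ∈ dbox K := by
    intro x
    by_cases hx : cf x ∈ UU T
    · have h1 := hrm.maps' _ hx
      rw [mem_ball_zero_iff] at h1
      obtain ⟨K, hK1, hK2, -⟩ := exists_dbox h1
      exact ⟨K, fun _ => ⟨hK1, hK2⟩⟩
    · exact ⟨(0, 0), fun h => absurd h hx⟩
  choose Bx hBx using hBx
  have hB0card : (((box (0, 0) R).image Bx).card : ℝ) ≤ (2 * R + 1) ^ 2 := by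
    rw [← card_box (0, 0) R]
    exact_mod_cast Finset.card_image_le
  have hRa : (0 : ℝ) < (R : ℝ) ^ a₀ := Real.rpow_pos_of_pos hRp _
  obtain ⟨r1, hr1⟩ : ∃ r1, r1 = δ * (R : ℝ) ^ (1 - a₀) := ⟨_, rfl⟩
  have hr1p : 0 < r1 := by rw [hr1]; positivity
  have hSr : b * (R : ℝ) ^ a₀ ≤ S0 / r1 := by
    rw [hb', le_div_iff₀ hr1p, hr1]
    have e1 : (R : ℝ) ^ (1 - a₀) * (R : ℝ) ^ a₀ = R := by
      rw [← Real.rpow_add hRp, sub_add_cancel, Real.rpow_one]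
    calc S0 / (M + 1) * (R : ℝ) ^ a₀ * (δ * (R : ℝ) ^ (1 - a₀))
        = S0 / (M + 1) * (δ * ((R : ℝ) ^ (1 - a₀) * (R : ℝ) ^ a₀)) := by ring
      _ = S0 / (M + 1) * (δ * R) := by rw [e1]
      _ ≤ S0 / (M + 1) * (M + 1) := by gcongr
      _ = S0 := by field_simp
  -- the fjords
  have hk1 : ((⌈C₁ * Real.log R⌉₊ : ℕ) : ℝ) + 1 ≤ S0 / r1 := by
    have h1 := (Nat.ceil_lt_add_one (a := C₁ * Real.log R)
      (mul_nonneg hC₁ (Real.log_nonneg hR1'))).le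
    linarith
  have hsz : ∀ K : ℕ × ℕ, 0 < bsz T f K := by
    intro K
    have h1 := hrm.maps _ (cen_mem K)
    have hcl : IsClosed (UU T)ᶜ := (isOpen_UU T).isClosed_compl
    have hne' : ((UU T)ᶜ).Nonempty := by
      by_contra hcon
      rw [not_nonempty_iff_eq_empty] at hcon
      have h2 : dU T ((z₀ - S.a n) / δ) = 0 := by
        unfold dU
        rw [hcon, infDist_empty]
      rw [h2] at hzd
      have : 0 < c3 / δ := by positivity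
      linarith
    exact (hcl.notMem_iff_infDist_pos hne').1 (fun h => h h1)
  have hFj := hfj T.V ((box (0, 0) R).image Bx) (boxes N) (fun K => δ * bsz T f K)
    (EvA (trc φ)) r1
    ⌈C₁ * Real.log R⌉₊ hr1p hk1 (fun K _ => mul_pos hδp (hsz K)) (by
      have h1 := har R T hRpos hfit f φ hrm N
      calc ∑ K ∈ boxes N, (δ * bsz T f K) ^ 2 = δ ^ 2 * ∑ K ∈ boxes N, bsz T f K ^ 2 := by
            rw [Finset.mul_sum]
            exact Finset.sum_congr rfl fun K _ => by ring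
        _ ≤ δ ^ 2 * (Ca * (R : ℝ) ^ 2) := by gcongr
        _ = Ca * (δ * R) ^ 2 := by ring
        _ ≤ Ca * (M + 1) ^ 2 := by gcongr) (by
      intro K hK k hk _ hgood
      apply harm R T hR0' hfit f φ hrm N hTr K hK k hk
      rw [hr1] at hgood
      rcases hgood with h | h | h
      · left
        exact le_of_mul_le_mul_left h hδp
      · right; left
        exact le_of_mul_le_mul_left h hδp
      · right; right
        exact (Nat.le_ceil _).trans (by exact_mod_cast h))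
  -- the collar
  have hCo : Pr T.V (EvC (trc φ) ε' τ) ≤ ε / 4 := by
    apply hcol R T hR1n hfit f φ hrm _ N hTr
    rw [hf0]
    refine le_trans ?_ hzd
    rw [le_div_iff₀ hδp]
    have e1 : (R : ℝ) ^ (1 - a₀') = R / (R : ℝ) ^ a₀' := by
      rw [Real.rpow_sub hRp, Real.rpow_one]
    have hRa' : (0 : ℝ) < (R : ℝ) ^ a₀' := Real.rpow_pos_of_pos hRp _
    rw [e1, div_mul_eq_mul_div, div_le_iff₀ hRa']
    rw [div_le_iff₀ hc3] at hpow
    calc (R : ℝ) * δ = δ * R := mul_comm _ _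
      _ ≤ M + 1 := hRle
      _ ≤ _ := by linarith
  -- the inclusion
  have hincl : Pr T.V (fun ω => ∃ v m, ω.1 v ≠ ω.2 v ∧
      (∀ j ≤ m, infDist (Q1.pt δ (S.a n) ((SW.suc ω)^[j] v)) (frontier Ω) ≤ η) ∧
      ∃ i ≤ m, ∃ j ≤ m, ρ ≤ dist (Q1.pt δ (S.a n) ((SW.suc ω)^[i] v))
        (Q1.pt δ (S.a n) ((SW.suc ω)^[j] v))) ≤
      Pr T.V (fun ω => EvC (trc φ) ε' τ ω ∨
        Fj0 ((box (0, 0) R).image Bx) (boxes N) (fun K => δ * bsz T f K)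
          (EvA (trc φ)) S0 r0 ω) := by
    apply E.Pr_mono
    rintro ω hω ⟨v, m, hv, hnear, i, hi, j, hj, hdist⟩
    refine incl hrm hδp hTr hω hfit hBx hSTR hCc (hch T f φ hrm) hρ hτε hττ hS0 hr0S
      (hmesh.trans_le (min_le_left _ _)) (hmesh.trans_le (min_le_right _ _)) ?_ ?_ hv hnear
      hi hj hdist
    · intro K hK
      by_contra hcon
      push Not at hcon
      have h1 : r0 / δ ≤ dU T (f (cen K)) := by
        rw [div_le_iff₀ hδp]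
        unfold bsz at hcon
        linarith
      have h2 := hstat f φ hrm hf0 _ (hrm.maps _ (cen_mem K)) h1
      rw [hrm.left _ (cen_mem K), norm_cen] at h2
      linarith
    · intro z hz h1
      by_contra hcon
      push Not at hcon
      have h6 := hL2 z hz h1
      have h7 := hH T f φ hrm (φ z) (hrm.maps' z hz)
      rw [hrm.right z hz, hf0] at h7
      have h8 : τ' ^ p < (1 - ‖φ z‖) ^ p := pow_lt_pow_left₀ hcon hτ'p.le hp0
      have h9 : cH * τ' ^ p * (c3 / δ) ≤ dU T z := by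
        refine le_trans ?_ h7
        have h8' : 0 ≤ 1 - ‖φ z‖ := hτ'p.le.trans hcon.le
        exact mul_le_mul (mul_le_mul_of_nonneg_left h8.le hcH.le) hzd (by positivity)
          (mul_nonneg hcH.le (pow_nonneg h8' p))
      have h10 : cH * τ' ^ p * c3 ≤ δ * dU T z := by
        calc cH * τ' ^ p * c3 = δ * (cH * τ' ^ p * (c3 / δ)) := by field_simp
          _ ≤ _ := by gcongr
      linarith
  refine hincl.trans ((E.Pr_or_le _ _ _).trans ?_)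
  have hlast : (((box (0, 0) R).image Bx).card : ℝ) * (C * Real.exp (-(c * (S0 / r1 - 1)))) ≤
      ε / 4 := by
    refine le_trans ?_ hgrow.le
    have h1 : C * Real.exp (-(c * (S0 / r1 - 1))) ≤
        C * Real.exp c * Real.exp (-(c * b * (R : ℝ) ^ a₀)) := by
      rw [mul_assoc, ← Real.exp_add]
      have h2 := mul_le_mul_of_nonneg_left hSr hc.le
      have h3 : -(c * (S0 / r1 - 1)) ≤ c + -(c * b * (R : ℝ) ^ a₀) := by
        have e2 : c * b * (R : ℝ) ^ a₀ = c * (b * (R : ℝ) ^ a₀) := by ring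
        rw [e2]
        linarith
      exact mul_le_mul_of_nonneg_left (Real.exp_le_exp.2 h3) hC
    exact mul_le_mul hB0card h1 (by positivity) (by positivity)
  linarith

end Vale.Agent.P155.BD
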